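import Vale.Agent.P253.H89.ZSol
import Vale.Agent.P253.H22.Fld

/-!
P253: a holomorphic vector field which expands the metric uniformly has a zero.
-/

open scoped Manifold ContDiff Topology Bundle
open Set Metric Complex Filter Bundle IsManifold Manifold Module MeasureTheory
  Vale.Agent.P253.Mfd Vale.Agent.P253.H595 Vale.Agent.P253.H22

set_option maxSynthPendingDepth 3
set_option linter.unusedSectionVars false

noncomputable section

namespace Vale.Agent.P253.H89

variable {E : Type*} [NormedAddCommGroup E] [NormedSpace ℂ E] [FiniteDimensional ℂ E]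
  {M : Type*} [MetricSpace M] [ChartedSpace E M]
  [IsManifold 𝓘(ℂ, E) 1 M] [IsManifold 𝓘(ℝ, E) ∞ M]
  [RiemannianBundle (fun x : M => TangentSpace 𝓘(ℝ, E) x)]
  [IsContMDiffRiemannianBundle 𝓘(ℝ, E) ∞ E (fun x : M => TangentSpace 𝓘(ℝ, E) x)]
  {e : OpenPartialHomeomorph M E} {Z : (x : M) → TangentSpace 𝓘(ℂ, E) x} {lam : ℝ}

theorem hasFDerivAt_comps (hZ : IsHolField Z) (he : e ∈ maximalAtlas 𝓘(ℂ, E) 1 M) {z : E}
    (hz : z ∈ e.target) :
    HasFDerivAt (fun y : E => comps (E := E) Z e (e.symm y))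
      (fderiv ℝ (fun y : E => comps (E := E) Z e (e.symm y)) z) z :=
  ((((contDiffOn_of_differentiableOn_complex e.open_target (hZ e he)).restrict_scalars ℝ).contDiffAt
      (e.open_target.mem_nhds hz)).differentiableAt (by simp)).hasFDerivAt

theorem continuous_fnorm_sq (hZ : IsHolField Z) : Continuous (fun x => fnorm E Z x ^ 2) := by
  rw [continuous_iff_continuousAt]
  intro x
  have he : chartAt E x ∈ maximalAtlas 𝓘(ℂ, E) 1 M := chart_mem_maximalAtlas x
  have hx : x ∈ (chartAt E x).source := mem_chart_source E x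
  set e := chartAt E x with hedef
  have her := mem_maximalAtlas_real he
  have hz := e.map_source hx
  set c : E → E := fun y => comps (E := E) Z e (e.symm y) with hc
  have hG : ContinuousAt (chartG e) (e x) :=
    ((contDiffOn_chartG her).continuousOn).continuousAt (e.open_target.mem_nhds hz)
  have hcc : ContinuousAt c (e x) := (hasFDerivAt_comps hZ he hz).continuousAt
  have h1 : ContinuousAt (fun z => chartG e z (c z) (c z)) (e x) := (hG.clm_apply hcc).clm_apply hcc
  have h2 : ContinuousAt (fun y => chartG e (e y) (c (e y)) (c (e y))) x :=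
    ContinuousAt.comp (g := fun z => chartG e z (c z) (c z)) (f := e) h1 (e.continuousAt hx)
  refine h2.congr ?_
  filter_upwards [e.open_source.mem_nhds hx] with y hy
  rw [fnorm_sq_eq he hy]
  simp only [hc, e.left_inv hy]

theorem continuous_fnorm (hZ : IsHolField Z) : Continuous (fnorm E Z) := by
  have h := (continuous_fnorm_sq hZ).sqrt
  have h1 : (fun x => √(fnorm E Z x ^ 2)) = fnorm E Z := by
    funext x
    exact Real.sqrt_sq (norm_nonneg _)
  rwa [h1] at h

/-- the derivative of the squared speed along an orbit -/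
theorem hasDerivAt_speed (hZ : IsHolField Z) {x : M} {r t : ℝ}
    (hD : ((r : ℂ) * t, x) ∈ DF (IntAt Z)) (he : e ∈ maximalAtlas 𝓘(ℂ, E) 1 M)
    (hs : FF (IntAt Z) (r * t) x ∈ e.source) :
    HasDerivAt (fun s : ℝ => fnorm E Z (FF (IntAt Z) (s * t) x) ^ 2)
      (2 * t * Sfun (chartG e) (fun y => comps Z e (e.symm y)) (e (FF (IntAt Z) (r * t) x))
        (comps Z e (FF (IntAt Z) (r * t) x))) r := by
  have hLF := locFlow_of_field hZ
  have her := mem_maximalAtlas_real he
  set c : E → E := fun y => comps (E := E) Z e (e.symm y) with hc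
  set z : E := e (FF (IntAt Z) (r * t) x) with hz
  have hzt : z ∈ e.target := e.map_source hs
  have h1 := hasDerivAt_line he hZ t hD hs
  have hcz : comps (E := E) Z e (FF (IntAt Z) (r * t) x) = c z := by
    simp only [hc, hz, e.left_inv hs]
  rw [hcz] at h1 ⊢
  have hG : HasFDerivAt (chartG e) (fderiv ℝ (chartG e) z) z :=
    (((contDiffOn_chartG her).contDiffAt (e.open_target.mem_nhds hzt)).differentiableAt
      (by simp)).hasFDerivAt
  have hcd : HasFDerivAt c (fderiv ℝ c z) z := hasFDerivAt_comps hZ he hzt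
  have h2 := HasFDerivAt.comp_hasDerivAt (f := fun s : ℝ => e (FF (IntAt Z) (s * t) x)) r hG h1
  have h3 := HasFDerivAt.comp_hasDerivAt (f := fun s : ℝ => e (FF (IntAt Z) (s * t) x)) r hcd h1
  have h4 := (h2.clm_apply h3).clm_apply h3
  have h5 : fderiv ℝ (chartG e) z (t • c z) (c z) (c z)
      + chartG e z (fderiv ℝ c z (t • c z)) (c z) + chartG e z (c z) (fderiv ℝ c z (t • c z)) =
      2 * t * Sfun (chartG e) c z (c z) := by
    rw [chartG_symm e z (c z)]
    simp only [map_smul, smul_apply, smul_eq_mul, Sfun]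
    ring
  have hcont : ContinuousAt (fun s : ℝ => FF (IntAt Z) (s * t) x) r := by
    have h7 : ContinuousAt (fun w => FF (IntAt Z) w x) ((r : ℂ) * t) :=
      (hLF.mdiff (FF_int hLF hD)).continuousAt
    have h8 : ContinuousAt (fun s : ℝ => (s : ℂ) * t) r := by fun_prop
    exact ContinuousAt.comp (g := fun w => FF (IntAt Z) w x) (f := fun s : ℝ => (s : ℂ) * t) h7 h8
  have h7 : (fun s : ℝ => fnorm E Z (FF (IntAt Z) (s * t) x) ^ 2) =ᶠ[𝓝 r]
      fun s : ℝ => chartG e (e (FF (IntAt Z) (s * t) x)) (c (e (FF (IntAt Z) (s * t) x)))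
        (c (e (FF (IntAt Z) (s * t) x))) := by
    filter_upwards [hcont.eventually (e.open_source.mem_nhds hs)] with s hs'
    rw [fnorm_sq_eq he hs']
    simp only [hc, e.left_inv hs']
  refine HasDerivAt.congr_of_eventuallyEq ?_ h7
  refine h4.congr_deriv ?_
  simp only [Function.comp_apply, add_apply]
  linarith only [h5]

variable [IsRiemannianManifold 𝓘(ℝ, E) M]

/-- a holomorphic vector field which expands the metric at a uniform rate has a zero -/
theorem exists_zero_of_expanding (hK : IsKahler E M) [ProperSpace M] (x₀ : M)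
    (hZ : IsHolField Z) {c : ℝ} (hc : 0 < c)
    (hS : ∀ e ∈ maximalAtlas 𝓘(ℂ, E) 1 M, ∀ z ∈ e.target, ∀ a,
      c * chartG e z a a ≤ Sfun (chartG e) (fun y => comps Z e (e.symm y)) z a) :
    ∃ p, Z p = 0 := by
  have hLF := locFlow_of_field hZ
  have hcont := continuous_fnorm (E := E) hZ
  -- a point at which the length of the field almost does not decrease
  obtain ⟨q, hq⟩ : ∃ q, ∀ y, fnorm E Z q ≤ fnorm E Z y + c / 4 * dist q y := by
    have h1 : Continuous fun y => fnorm E Z y + c / 4 * dist x₀ y := by fun_prop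
    have h2 : Tendsto (fun y => fnorm E Z y + c / 4 * dist x₀ y) (cocompact M) atTop := by
      refine tendsto_atTop_mono (fun y => ?_)
        ((tendsto_dist_left_cocompact_atTop x₀).const_mul_atTop (by positivity : 0 < c / 4))
      have : 0 ≤ fnorm E Z y := norm_nonneg _
      linarith only [this]
    have : Nonempty M := ⟨x₀⟩
    obtain ⟨q, hq⟩ := h1.exists_forall_le h2
    refine ⟨q, fun y => ?_⟩
    have h3 := hq y
    have h4 := mul_le_mul_of_nonneg_left (dist_triangle x₀ q y) (by positivity : 0 ≤ c / 4)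
    linarith only [h3, h4]
  refine ⟨q, ?_⟩
  by_contra hne
  set A := fnorm E Z q with hA
  have hA0 : 0 < A := by
    have h1 : (show TangentSpace 𝓘(ℝ, E) q from Z q) ≠ 0 := hne
    exact norm_pos_iff.2 h1
  -- a neighbourhood in which the field is bounded by `3 A / 2`
  obtain ⟨δ, hδ, hb⟩ := Metric.continuousAt_iff.1 (hcont.continuousAt (x := q)) (A / 2) (by positivity)
  have hb' : ∀ y, dist q y ≤ δ / 2 → fnorm E Z y ≤ 3 / 2 * A := by
    intro y hy
    have h1 := hb (x := y) (by rw [dist_comm]; linarith only [hy, hδ])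
    rw [Real.dist_eq] at h1
    have h2 := (abs_lt.1 h1).2
    linarith only [h2, hA]
  set t : ℝ := -1 with ht
  have hnt : ‖(t : ℂ)‖ = 1 := by rw [ht]; simp
  have hop : IsOpen {r : ℝ | ((r : ℂ) * t, q) ∈ DF (IntAt Z)} :=
    (isOpen_slice (P := IntAt Z) q).preimage (f := fun r : ℝ => (r : ℂ) * t) (by fun_prop)
  have h0D : (((0 : ℝ) : ℂ) * t, q) ∈ DF (IntAt Z) := by
    rw [ofReal_zero, zero_mul]; exact zero_mem_DF hLF q
  obtain ⟨η, hη, hηD⟩ := Metric.isOpen_iff.1 hop 0 h0D
  have hFF0 : FF (IntAt Z) (((0 : ℝ) : ℂ) * t) q = q := by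
    rw [ofReal_zero, zero_mul]; exact FF_zero hLF q
  have he : chartAt E q ∈ maximalAtlas 𝓘(ℂ, E) 1 M := chart_mem_maximalAtlas q
  have hqe : q ∈ (chartAt E q).source := mem_chart_source E q
  have hder := hasDerivAt_speed (e := chartAt E q) hZ h0D he (by rw [hFF0]; exact hqe)
  rw [hFF0] at hder
  set S := Sfun (chartG (chartAt E q)) (fun y => comps Z (chartAt E q) ((chartAt E q).symm y))
    (chartAt E q q) (comps Z (chartAt E q) q) with hSdef
  have hSge : c * A ^ 2 ≤ S := by
    have h1 := hS _ he _ ((chartAt E q).map_source hqe) (comps Z (chartAt E q) q)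
    rwa [← fnorm_sq_eq he hqe] at h1
  have hslope := hasDerivAt_iff_tendsto_slope.1 hder
  have hslope' : Tendsto (slope (fun s : ℝ => fnorm E Z (FF (IntAt Z) (s * t) q) ^ 2) 0) (𝓝[>] 0)
      (𝓝 (2 * t * S)) := hslope.mono_left (nhdsWithin_mono _ fun s hs => (ne_of_gt hs))
  have hfin : -(3 / 2 * c * A ^ 2) ≤ 2 * t * S := by
    refine ge_of_tendsto hslope' ?_
    have hm : 0 < min (min η (δ / (12 * A))) (1 / c) := by positivity
    filter_upwards [Ioo_mem_nhdsGT hm] with b hb1
    have hb0 : 0 < b := hb1.1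
    have hbη : b < η := hb1.2.trans_le ((min_le_left _ _).trans (min_le_left _ _))
    have hbδ : b < δ / (12 * A) := hb1.2.trans_le ((min_le_left _ _).trans (min_le_right _ _))
    have hbc : b < 1 / c := hb1.2.trans_le (min_le_right _ _)
    rw [lt_div_iff₀ (by positivity)] at hbδ hbc
    have hdist := dist_FF_le (E := E) hK hZ (x := q) (C := 3 / 2 * A) (D := δ / 2) (by positivity) hb'
      (t := (t : ℂ)) (b := b) hb0.le (fun r hr => hηD (by
        rw [mem_ball_zero_iff, Real.norm_eq_abs, abs_of_nonneg hr.1]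
        exact hr.2.trans_lt hbη)) (by rw [hnt]; nlinarith only [hbδ, hA0, hδ])
    rw [hnt] at hdist
    have h1 := hq (FF (IntAt Z) (b * t) q)
    have h2 : A * (1 - 3 / 4 * c * b) ≤ fnorm E Z (FF (IntAt Z) (b * t) q) := by
      have h3 := mul_le_mul_of_nonneg_left hdist (by positivity : 0 ≤ c / 4)
      linarith only [h1, h3]
    have h3 : 0 ≤ A * (1 - 3 / 4 * c * b) := by
      have : 0 ≤ 1 - 3 / 4 * c * b := by linarith only [hbc]
      positivity
    have h4 := pow_le_pow_left₀ h3 h2 2
    rw [slope_def_field, hFF0, sub_zero, le_div_iff₀ hb0]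
    have h5 : 0 ≤ A ^ 2 * (3 / 4 * c * b) ^ 2 := by positivity
    nlinarith only [h4, h5]
  have h1 : 0 < c * A ^ 2 := by positivity
  rw [ht] at hfin
  linarith only [hfin, hSge, h1]

/-- the soliton field of an expanding soliton of nonnegative bisectional curvature has a zero -/
theorem IsRicciSoliton.exists_zero (hK : IsKahler E M) [ProperSpace M] (x₀ : M)
    (hZ : IsHolField Z) (hs : IsRicciSoliton E Z lam) (hlam : lam < 0)
    (hnn : ∀ x : M, NonnegBisectionalAt E x) : ∃ p, Z p = 0 := by
  refine exists_zero_of_expanding hK x₀ hZ (c := -lam) (by linarith) fun e he z hz a => ?_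
  obtain ⟨b, hb⟩ := H348.exists_orthonormalAt (e := e) he hz
  rw [hs.Sfun_eq hK he hz hb]
  have h1 : 0 ≤ ∑ i, Rc (chartG e) z (b i) a :=
    Finset.sum_nonneg fun i _ => Rc_nonneg_chartG hK he hz (hnn _) _ _
  linarith only [h1]

end Vale.Agent.P253.H89
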