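import Vale.Agent.P253.MathlibUsed

/-!
P253: holomorphic self-maps all of whose forward orbits meet a compact set: the iterates converge
to a point, if the distance to some point satisfies a near-maximum principle.
-/

open scoped Manifold ContDiff Topology
open Set Metric Complex Filter IsManifold

noncomputable section

namespace Vale.Agent.P253.H89

section top

variable {X : Type*} [TopologicalSpace X] {f : X → X}

/-- bounded return times -/
theorem exists_return (hf : Continuous f) {K U : Set X} (hKU : K ⊆ U) (hU : IsOpen U)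
    (hmeet : ∀ x, ∃ n, f^[n] x ∈ K) {C : Set X} (hC : IsCompact C) :
    ∃ N, ∀ x ∈ C, ∃ n ≤ N, f^[n + 1] x ∈ U := by
  refine hC.induction_on (p := fun S => ∃ N, ∀ x ∈ S, ∃ n ≤ N, f^[n + 1] x ∈ U) ?_ ?_ ?_ ?_
  · exact ⟨0, fun x hx => absurd hx (notMem_empty x)⟩
  · rintro S T hST ⟨N, hN⟩
    exact ⟨N, fun x hx => hN x (hST hx)⟩
  · rintro S T ⟨N, hN⟩ ⟨N', hN'⟩
    refine ⟨max N N', ?_⟩
    rintro x (hx | hx)
    · obtain ⟨n, hn, h⟩ := hN x hx
      exact ⟨n, hn.trans (le_max_left _ _), h⟩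
    · obtain ⟨n, hn, h⟩ := hN' x hx
      exact ⟨n, hn.trans (le_max_right _ _), h⟩
  · intro x _
    obtain ⟨n, hn⟩ := hmeet (f x)
    have h1 : f^[n + 1] x ∈ U := by
      rw [Function.iterate_succ_apply]
      exact hKU hn
    refine ⟨f^[n + 1] ⁻¹' U, mem_nhdsWithin_of_mem_nhds
      ((hU.preimage (hf.iterate _)).mem_nhds h1), n, fun y hy => ⟨n, le_rfl, hy⟩⟩

/-- an absorbing compact set -/
theorem exists_absorbing [WeaklyLocallyCompactSpace X] [R1Space X] (hf : Continuous f)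
    {K : Set X} (hK : IsCompact K) (hmeet : ∀ x, ∃ n, f^[n] x ∈ K) :
    ∃ L : Set X, IsCompact L ∧ (∀ x ∈ L, f x ∈ L) ∧
      ∀ C : Set X, IsCompact C → ∃ N, ∀ x ∈ C, ∀ n ≥ N, f^[n] x ∈ L := by
  obtain ⟨U, hU, hKU, hUc⟩ := exists_isOpen_superset_and_isCompact_closure hK
  obtain ⟨N, hN⟩ := exists_return hf hKU hU hmeet hUc
  set K2 : Set X := ⋃ n ∈ Iic (N + 1), f^[n] '' closure U with hK2
  have hK2c : IsCompact K2 :=
    (finite_Iic (N + 1)).isCompact_biUnion fun n _ => hUc.image (hf.iterate n)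
  have hall : ∀ m : ℕ, ∀ y ∈ closure U, f^[m] y ∈ K2 := by
    intro m
    induction m using Nat.strong_induction_on with
    | _ m ih =>
      intro y hy
      by_cases hm : m ≤ N + 1
      · exact mem_biUnion (show m ∈ Iic (N + 1) from hm) (mem_image_of_mem _ hy)
      · push Not at hm
        obtain ⟨n, hn, h⟩ := hN y hy
        have h1 := ih (m - (n + 1)) (by omega) _ (subset_closure h)
        rw [← Function.iterate_add_apply] at h1
        rwa [show m - (n + 1) + (n + 1) = m by omega] at h1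
  set S : Set X := ⋃ m : ℕ, f^[m] '' U with hS
  have hSK : S ⊆ K2 := by
    rintro _ ⟨_, ⟨m, rfl⟩, y, hy, rfl⟩
    exact hall m y (subset_closure hy)
  refine ⟨closure S, ?_, ?_, ?_⟩
  · exact hK2c.closure_of_subset hSK
  · intro x hx
    refine map_mem_closure hf hx ?_
    rintro _ ⟨_, ⟨m, rfl⟩, y, hy, rfl⟩
    refine mem_iUnion.2 ⟨m + 1, y, hy, ?_⟩
    rw [Function.iterate_succ_apply']
  · intro C hC
    obtain ⟨N', hN'⟩ := exists_return hf hKU hU hmeet hC
    refine ⟨N' + 1, fun x hx n hn => ?_⟩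
    obtain ⟨k, hk, h⟩ := hN' x hx
    refine subset_closure (mem_iUnion.2 ⟨n - (k + 1), f^[k + 1] x, h, ?_⟩)
    rw [← Function.iterate_add_apply]
    congr 2
    omega

end top

variable {E : Type*} [NormedAddCommGroup E] [NormedSpace ℂ E]
  {M : Type*} [MetricSpace M] [ChartedSpace E M]

variable (E) in
/-- near-maximum principle for the distance to `q` along holomorphic discs in `Q` -/
def NearMax (Q : Set M) (q : M) : Prop :=
  ∀ ε > 0, ∃ t₀ > 0, ∀ g : ℂ → M,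
    (∀ z ∈ closedBall (0:ℂ) 1, MDifferentiableAt 𝓘(ℂ, ℂ) 𝓘(ℂ, E) g z) →
    (∀ z ∈ closedBall (0:ℂ) 1, g z ∈ Q) → ∀ z ∈ closedBall (0:ℂ) (1 / 2),
    (∀ w ∈ closedBall (0:ℂ) 1, dist (g z) q ≤ dist (g w) q + t₀) → dist (g 0) (g z) < ε

variable [IsManifold 𝓘(ℂ, E) 1 M]

/-- small discs in charts -/
theorem exists_discs [ProperSpace E] (x₁ : M) :
    ∃ U ∈ 𝓝 x₁, ∃ B : Set M, IsCompact B ∧ ∀ x ∈ U, ∀ y ∈ U, ∃ γ : ℂ → M,
      (∀ z ∈ closedBall (0:ℂ) 1, MDifferentiableAt 𝓘(ℂ, ℂ) 𝓘(ℂ, E) γ z) ∧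
      (∀ z ∈ closedBall (0:ℂ) 1, γ z ∈ B) ∧ γ 0 = y ∧ γ (1 / 2 : ℂ) = x := by
  set e := chartAt E x₁ with he
  have hx : x₁ ∈ e.source := mem_chart_source E x₁
  obtain ⟨r, hr, hball⟩ := Metric.nhds_basis_closedBall.mem_iff.1
    (e.open_target.mem_nhds (e.map_source hx))
  refine ⟨e.source ∩ e ⁻¹' ball (e x₁) (r / 8), ?_, e.symm '' closedBall (e x₁) r, ?_, ?_⟩
  · exact inter_mem (e.open_source.mem_nhds hx)
      ((e.continuousAt hx).preimage_mem_nhds (ball_mem_nhds _ (by positivity)))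
  · exact (isCompact_closedBall _ _).image_of_continuousOn (e.continuousOn_symm.mono hball)
  · rintro x ⟨hxs, hx2⟩ y ⟨hys, hy2⟩
    rw [mem_preimage, mem_ball, dist_eq_norm] at hx2 hy2
    set a : ℂ → E := fun z => e y + (2 * z) • (e x - e y) with ha
    have hamem : ∀ z ∈ closedBall (0:ℂ) 1, a z ∈ closedBall (e x₁) r := by
      intro z hz
      rw [mem_closedBall, dist_zero_right] at hz
      rw [mem_closedBall, dist_eq_norm]
      have e1 : a z - e x₁ = (e y - e x₁) + (2 * z) • ((e x - e x₁) - (e y - e x₁)) := by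
        simp only [ha]
        rw [sub_sub_sub_cancel_right]
        abel
      rw [e1]
      have h1 : ‖(2 * z) • ((e x - e x₁) - (e y - e x₁))‖ ≤ 2 * (‖e x - e x₁‖ + ‖e y - e x₁‖) := by
        rw [norm_smul, norm_mul]
        have h2 : ‖(2:ℂ)‖ = 2 := by simp
        rw [h2]
        have h3 := norm_sub_le (e x - e x₁) (e y - e x₁)
        have h4 : 2 * ‖z‖ ≤ 2 := by linarith
        calc 2 * ‖z‖ * ‖(e x - e x₁) - (e y - e x₁)‖ ≤ 2 * ‖(e x - e x₁) - (e y - e x₁)‖ :=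
              mul_le_mul_of_nonneg_right h4 (norm_nonneg _)
          _ ≤ _ := mul_le_mul_of_nonneg_left h3 (by norm_num)
      refine (norm_add_le _ _).trans ?_
      linarith
    refine ⟨fun z => e.symm (a z), fun z hz => ?_, fun z hz => ⟨a z, hamem z hz, rfl⟩, ?_, ?_⟩
    · have h1 : MDifferentiableAt 𝓘(ℂ, E) 𝓘(ℂ, E) e.symm (a z) :=
        mdifferentiableAt_atlas_symm (I := 𝓘(ℂ, E)) (chart_mem_atlas E x₁) (hball (hamem z hz))
      have h2 : MDifferentiableAt 𝓘(ℂ, ℂ) 𝓘(ℂ, E) a z := by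
        have h3 : DifferentiableAt ℂ a z := by
          simp only [ha]
          fun_prop
        exact h3.mdifferentiableAt
      exact h1.comp z h2
    · simp [ha, e.left_inv hys]
    · have e1 : a (1 / 2 : ℂ) = e x := by
        simp only [ha]
        norm_num
      simp only [e1, e.left_inv hxs]

/-- **iterates converge to a point** -/
theorem attract [ProperSpace E] [WeaklyLocallyCompactSpace M] [ConnectedSpace M] {f : M → M}
    (hf : MDifferentiable 𝓘(ℂ, E) 𝓘(ℂ, E) f) {K : Set M} (hK : IsCompact K)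
    (hmeet : ∀ x, ∃ n, f^[n] x ∈ K) (hNM : ∀ Q : Set M, IsCompact Q → ∃ q, NearMax E Q q) :
    ∃ p, f p = p ∧ ∀ x, ∀ W ∈ 𝓝 p, ∃ U ∈ 𝓝 x, ∀ᶠ n : ℕ in atTop, ∀ y ∈ U, f^[n] y ∈ W := by
  have hfc : Continuous f := hf.continuous
  have hfn : ∀ n, Continuous (f^[n]) := fun n => hfc.iterate n
  have hfd : ∀ n, MDifferentiable 𝓘(ℂ, E) 𝓘(ℂ, E) (f^[n]) := by
    intro n
    induction n with
    | zero => exact mdifferentiable_id
    | succ n ih =>
      rw [Function.iterate_succ']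
      exact hf.comp ih
  obtain ⟨L, hLc, hfL, habs⟩ := exists_absorbing hfc hK hmeet
  obtain ⟨q, hnm⟩ := hNM L hLc
  have hfLn : ∀ n, ∀ x ∈ L, f^[n] x ∈ L := by
    intro n
    induction n with
    | zero => exact fun x hx => hx
    | succ n ih => exact fun x hx => by rw [Function.iterate_succ_apply']; exact hfL _ (ih x hx)
  obtain ⟨x₀⟩ : Nonempty M := inferInstance
  have hLne : L.Nonempty := by
    obtain ⟨N, hN⟩ := habs {x₀} isCompact_singleton
    exact ⟨_, hN x₀ rfl N le_rfl⟩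
  -- the minimum distances
  have hmin : ∀ k : ℕ, ∃ x ∈ L, ∀ y ∈ L, dist (f^[k] x) q ≤ dist (f^[k] y) q := by
    intro k
    obtain ⟨x, hx, h⟩ := hLc.exists_isMinOn hLne
      (f := fun x => dist (f^[k] x) q) ((hfn k).dist continuous_const).continuousOn
    exact ⟨x, hx, fun y hy => h hy⟩
  choose xs hxsL hxs using hmin
  set D : ℕ → ℝ := fun k => dist (f^[k] (xs k)) q with hD
  have hDmono : Monotone D := by
    refine monotone_nat_of_le_succ fun k => ?_
    have h1 := hxs k (f (xs (k + 1))) (hfL _ (hxsL _))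
    rwa [← Function.iterate_succ_apply] at h1
  obtain ⟨R, hR⟩ := hLc.isBounded.subset_closedBall q
  have hDbdd : BddAbove (range D) := by
    refine ⟨R, ?_⟩
    rintro _ ⟨k, rfl⟩
    exact hR (hfLn k _ (hxsL k))
  set D₀ : ℝ := ⨆ k, D k with hD₀
  have hDlim : Tendsto D atTop (𝓝 D₀) := tendsto_atTop_ciSup hDmono hDbdd
  -- the key inequality
  have key : ∀ x₁ : M, ∃ U ∈ 𝓝 x₁, ∃ N : ℕ, ∀ ε > 0, ∃ t > 0, ∀ x ∈ U, ∀ y ∈ U, ∀ n ≥ N,
      dist (f^[n] x) q ≤ D (n - N) + t → dist (f^[n] y) (f^[n] x) < ε := by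
    intro x₁
    obtain ⟨U, hU, B, hB, hdisc⟩ := exists_discs (E := E) x₁
    obtain ⟨N, hN⟩ := habs B hB
    refine ⟨U, hU, N, fun ε hε => ?_⟩
    obtain ⟨t, ht, hnm'⟩ := hnm ε hε
    refine ⟨t, ht, fun x hx y hy n hn hd => ?_⟩
    obtain ⟨γ, h1, h2, h3, h4⟩ := hdisc x hx y hy
    have h5 := hnm' (fun z => f^[n] (γ z)) (fun z hz => (hfd n _).comp z (h1 z hz))
      (fun z hz => hN _ (h2 z hz) n hn) (1 / 2 : ℂ)
      (by rw [mem_closedBall, dist_zero_right]; norm_num) ?_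
    · simpa only [h3, h4] using h5
    · intro w hw
      simp only [h4]
      refine hd.trans (add_le_add ?_ le_rfl)
      have h6 := hxs (n - N) (f^[N] (γ w)) (hN _ (h2 w hw) N le_rfl)
      rwa [← Function.iterate_add_apply, Nat.sub_add_cancel hn] at h6
  -- the ultrafilter
  set 𝒰 : Ultrafilter ℕ := hyperfilter ℕ with h𝒰
  have hle : (𝒰 : Filter ℕ) ≤ atTop := Nat.hyperfilter_le_atTop
  have hlim : ∀ u : ℕ → M, (∀ n, u n ∈ L) → ∃ x ∈ L, Tendsto u 𝒰 (𝓝 x) := by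
    intro u hu
    obtain ⟨x, hx, h⟩ := hLc.ultrafilter_le_nhds (𝒰.map u)
      (by rw [le_principal_iff]; exact mem_map.2 (univ_mem' hu))
    exact ⟨x, hx, h⟩
  have hDN : ∀ N : ℕ, Tendsto (fun n => D (n - N)) 𝒰 (𝓝 D₀) := fun N =>
    (hDlim.comp (tendsto_sub_atTop_nat N)).mono_left hle
  obtain ⟨b, hbL, hb⟩ := hlim xs hxsL
  set S : Set M := {x | Tendsto (fun k => dist (f^[k] x) q) 𝒰 (𝓝 D₀)} with hS
  have hunif : ∀ x₁ : M, ∃ U ∈ 𝓝 x₁, ∀ x ∈ U, x ∈ S → ∀ ε > 0, ∀ᶠ k in (𝒰 : Filter ℕ), ∀ y ∈ U,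
      dist (f^[k] y) (f^[k] x) < ε := by
    intro x₁
    obtain ⟨U, hU, N, hkey⟩ := key x₁
    refine ⟨U, hU, fun x hx hxS ε hε => ?_⟩
    obtain ⟨t, ht, hd⟩ := hkey ε hε
    have h1 : Tendsto (fun k => dist (f^[k] x) q - D (k - N)) 𝒰 (𝓝 (D₀ - D₀)) :=
      Tendsto.sub hxS (hDN N)
    rw [sub_self] at h1
    filter_upwards [h1.eventually (gt_mem_nhds ht), hle (eventually_ge_atTop N)] with k hk hkN y hy
    exact hd x hx y hy k hkN (by linarith)
  have hbS : b ∈ S := by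
    obtain ⟨U, hU, N, hkey⟩ := key b
    have h1 : Tendsto (fun k => D k - D (k - N)) 𝒰 (𝓝 (D₀ - D₀)) :=
      Tendsto.sub (hDlim.mono_left hle) (hDN N)
    rw [sub_self] at h1
    have h2 : Tendsto (fun k => dist (f^[k] b) (f^[k] (xs k))) 𝒰 (𝓝 0) := by
      rw [Metric.tendsto_nhds]
      intro ε hε
      obtain ⟨t, ht, hd⟩ := hkey ε hε
      filter_upwards [h1.eventually (gt_mem_nhds ht), hle (eventually_ge_atTop N),
        hb.eventually hU] with k hk hkN hkU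
      rw [dist_zero_right, Real.norm_of_nonneg dist_nonneg]
      exact hd _ hkU b (mem_of_mem_nhds hU) k hkN (by
        have : dist (f^[k] (xs k)) q = D k := rfl
        linarith)
    have h3 : Tendsto (fun k => D k + dist (f^[k] b) (f^[k] (xs k))) 𝒰 (𝓝 (D₀ + 0)) :=
      (hDlim.mono_left hle).add h2
    have h4 : Tendsto (fun k => D k - dist (f^[k] b) (f^[k] (xs k))) 𝒰 (𝓝 (D₀ - 0)) :=
      (hDlim.mono_left hle).sub h2
    rw [add_zero] at h3
    rw [sub_zero] at h4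
    refine tendsto_of_tendsto_of_tendsto_of_le_of_le h4 h3 (fun k => ?_) (fun k => ?_)
    · have := dist_triangle (f^[k] (xs k)) (f^[k] b) q
      rw [dist_comm (f^[k] (xs k)) (f^[k] b)] at this
      have h5 : D k = dist (f^[k] (xs k)) q := rfl
      simp only
      linarith
    · have := dist_triangle (f^[k] b) (f^[k] (xs k)) q
      have h5 : D k = dist (f^[k] (xs k)) q := rfl
      simp only
      linarith
  -- a general clopen argument
  have hclopen : ∀ P : Set M, P.Nonempty → (∀ x₁ : M, ∃ U ∈ 𝓝 x₁, ∀ x ∈ U, x ∈ P → ∀ y ∈ U, y ∈ P) →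
      ∀ x, x ∈ P := by
    intro P hne h x
    have h1 : IsClopen P := by
      constructor
      · rw [← closure_subset_iff_isClosed]
        intro y hy
        obtain ⟨U, hU, hP⟩ := h y
        obtain ⟨z, hz, hzP⟩ := mem_closure_iff_nhds.1 hy U hU
        exact hP z hz hzP y (mem_of_mem_nhds hU)
      · rw [isOpen_iff_mem_nhds]
        intro y hy
        obtain ⟨U, hU, hP⟩ := h y
        exact mem_of_superset hU fun z hz => hP y (mem_of_mem_nhds hU) hy z hz
    rw [h1.eq_univ hne]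
    trivial
  have hSall : ∀ x, x ∈ S := by
    refine hclopen S ⟨b, hbS⟩ fun x₁ => ?_
    obtain ⟨U, hU, h⟩ := hunif x₁
    refine ⟨U, hU, fun x hx hxS y hy => ?_⟩
    have h2 : Tendsto (fun k => dist (f^[k] y) (f^[k] x)) 𝒰 (𝓝 0) := by
      rw [Metric.tendsto_nhds]
      intro ε hε
      filter_upwards [h x hx hxS ε hε] with k hk
      rw [dist_zero_right, Real.norm_of_nonneg dist_nonneg]
      exact hk y hy
    have hxS' : Tendsto (fun k => dist (f^[k] x) q) 𝒰 (𝓝 D₀) := hxS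
    have h3 := hxS'.add h2
    have h4 := hxS'.sub h2
    rw [add_zero] at h3
    rw [sub_zero] at h4
    refine tendsto_of_tendsto_of_tendsto_of_le_of_le h4 h3 (fun k => ?_) (fun k => ?_)
    · have := dist_triangle (f^[k] x) (f^[k] y) q
      rw [dist_comm (f^[k] x) (f^[k] y)] at this
      simp only
      linarith
    · have := dist_triangle (f^[k] y) (f^[k] x) q
      simp only
      linarith
  obtain ⟨p, hpL, hp⟩ := hlim (fun k => f^[k] b) (fun k => hfLn k b hbL)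
  have hTall : ∀ x, x ∈ {x : M | Tendsto (fun k => f^[k] x) 𝒰 (𝓝 p)} := by
    refine hclopen _ ⟨b, hp⟩ fun x₁ => ?_
    obtain ⟨U, hU, h⟩ := hunif x₁
    refine ⟨U, hU, fun x hx hxT y hy => ?_⟩
    have hxT' : Tendsto (fun k => f^[k] x) 𝒰 (𝓝 p) := hxT
    refine Metric.tendsto_nhds.2 fun ε hε => ?_
    filter_upwards [h x hx (hSall x) (ε / 2) (half_pos hε),
      Metric.tendsto_nhds.1 hxT' (ε / 2) (half_pos hε)] with k h1 h2
    have := dist_triangle (f^[k] y) (f^[k] x) p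
    have := h1 y hy
    linarith
  have hloc : ∀ x₁ : M, ∃ U ∈ 𝓝 x₁, ∀ ε > 0, ∀ᶠ k in (𝒰 : Filter ℕ), ∀ y ∈ U,
      dist (f^[k] y) p < ε := by
    intro x₁
    obtain ⟨U, hU, h⟩ := hunif x₁
    refine ⟨U, hU, fun ε hε => ?_⟩
    have hxT' : Tendsto (fun k => f^[k] x₁) 𝒰 (𝓝 p) := hTall x₁
    filter_upwards [h x₁ (mem_of_mem_nhds hU) (hSall x₁) (ε / 2) (half_pos hε),
      Metric.tendsto_nhds.1 hxT' (ε / 2) (half_pos hε)] with k h1 h2 y hy
    have := dist_triangle (f^[k] y) (f^[k] x₁) p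
    have := h1 y hy
    linarith
  have hfp : f p = p := by
    have h1 : Tendsto (fun k => f (f^[k] b)) 𝒰 (𝓝 (f p)) := (hfc.tendsto p).comp hp
    have h2 : Tendsto (fun k => f^[k] (f b)) 𝒰 (𝓝 p) := hTall (f b)
    have h3 : (fun k => f (f^[k] b)) = fun k => f^[k] (f b) := by
      funext k
      rw [← Function.iterate_succ_apply' f k b, Function.iterate_succ_apply]
    rw [h3] at h1
    exact tendsto_nhds_unique h1 h2
  have hfpn : ∀ i, f^[i] p = p := fun i => Function.iterate_fixed hfp i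
  refine ⟨p, hfp, fun x W hW => ?_⟩
  obtain ⟨Up, hUp, hlocp⟩ := hloc p
  obtain ⟨ε, hε, hεW⟩ := Metric.mem_nhds_iff.1 (inter_mem hW hUp)
  obtain ⟨k, hk, hk1⟩ := ((hlocp ε hε).and (hle (eventually_ge_atTop 1))).exists
  have hkB : MapsTo (f^[k]) (ball p ε) (ball p ε) := fun y hy => hk y (hεW hy).2
  have hB2 : ∀ᶠ y in 𝓝 p, ∀ i ∈ Iio k, f^[i] y ∈ ball p ε := by
    rw [eventually_all_finite (finite_Iio k)]
    intro i _
    have h1 := (hfn i).tendsto p
    rw [hfpn i] at h1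
    exact h1.eventually (ball_mem_nhds p hε)
  have hB3 : ∀ y, (∀ i ∈ Iio k, f^[i] y ∈ ball p ε) → ∀ n, f^[n] y ∈ ball p ε := by
    intro y hy n
    have h1 : f^[n] y = (f^[k])^[n / k] (f^[n % k] y) := by
      rw [← Function.iterate_mul, ← Function.iterate_add_apply, Nat.div_add_mod]
    rw [h1]
    exact hkB.iterate _ (hy _ (Nat.mod_lt _ hk1))
  have hxT : Tendsto (fun k => f^[k] x) 𝒰 (𝓝 p) := hTall x
  obtain ⟨V, hV, hVo, hpV⟩ := _root_.mem_nhds_iff.1 hB2
  obtain ⟨m, hm⟩ := (hxT.eventually (hVo.mem_nhds hpV)).exists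
  refine ⟨f^[m] ⁻¹' V, (hVo.preimage (hfn m)).mem_nhds hm, ?_⟩
  filter_upwards [eventually_ge_atTop m] with n hn y hy
  have h1 : f^[n] y = f^[n - m] (f^[m] y) := by
    rw [← Function.iterate_add_apply, Nat.sub_add_cancel hn]
  rw [h1]
  exact (hεW (hB3 _ (hV hy) _)).1

/-- local uniformity gives uniformity on compact sets -/
theorem unif_of_loc {f : M → M} {p : M}
    (h : ∀ x, ∀ W ∈ 𝓝 p, ∃ U ∈ 𝓝 x, ∀ᶠ n : ℕ in atTop, ∀ y ∈ U, f^[n] y ∈ W) {C : Set M}
    (hC : IsCompact C) {W : Set M} (hW : W ∈ 𝓝 p) : ∀ᶠ n : ℕ in atTop, ∀ x ∈ C, f^[n] x ∈ W := by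
  refine hC.induction_on (p := fun S => ∀ᶠ n : ℕ in atTop, ∀ x ∈ S, f^[n] x ∈ W) ?_ ?_ ?_ ?_
  · exact Eventually.of_forall fun n x hx => absurd hx (notMem_empty x)
  · intro S T hST hT
    filter_upwards [hT] with n hn x hx
    exact hn x (hST hx)
  · intro S T hS hT
    filter_upwards [hS, hT] with n h1 h2 x hx
    exact hx.elim (h1 x) (h2 x)
  · intro x _
    obtain ⟨U, hU, hn⟩ := h x W hW
    exact ⟨U, mem_nhdsWithin_of_mem_nhds hU, hn⟩

/-- **iterates converge to a point**, uniformly on compact sets -/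
theorem attract_compact [ProperSpace E] [WeaklyLocallyCompactSpace M] [ConnectedSpace M]
    {f : M → M} (hf : MDifferentiable 𝓘(ℂ, E) 𝓘(ℂ, E) f)
    (hmeet : ∃ K : Set M, IsCompact K ∧ ∀ x, ∃ k : ℕ, f^[k] x ∈ K)
    (hNM : ∀ Q : Set M, IsCompact Q → ∃ q, NearMax E Q q) :
    ∃ p, f p = p ∧ ∀ C : Set M, IsCompact C → ∀ W ∈ 𝓝 p, ∀ᶠ k : ℕ in atTop, ∀ x ∈ C,
      f^[k] x ∈ W := by
  obtain ⟨K, hK, hm⟩ := hmeet
  obtain ⟨p, hp, h⟩ := attract hf hK hm hNM
  exact ⟨p, hp, fun C hC W hW => unif_of_loc h hC hW⟩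

end Vale.Agent.P253.H89
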