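import Vale.Agent.P253.H89.Comm
import Vale.Agent.P253.H661.Conv

/-!
P253: commuting families of automorphisms, final form and converse.
-/

open scoped Manifold ContDiff Topology Bundle
open Set Metric Complex Filter Bundle IsManifold Manifold Module Vale.Agent.P253.Mfd
  Vale.Agent.P253.H661

set_option maxSynthPendingDepth 3
set_option linter.unusedSectionVars false

noncomputable section

namespace Vale.Agent.P253.H89

variable {E : Type*} [NormedAddCommGroup E] [NormedSpace ℂ E] [FiniteDimensional ℂ E]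
  {M : Type*} [MetricSpace M] [ChartedSpace E M]
  [IsManifold 𝓘(ℂ, E) 1 M]

/-- `ℂⁿ` has a commuting family of automorphisms which moves every compact set into one compact
set (dilations) -/
theorem exists_commuting (F : M ≃ₘ^1⟮𝓘(ℂ, E), 𝓘(ℂ, E)⟯ E) :
    ∃ G : Set (M ≃ₘ^1⟮𝓘(ℂ, E), 𝓘(ℂ, E)⟯ M), (∀ g ∈ G, ∀ h ∈ G, ∀ x, g (h x) = h (g x)) ∧
      ∃ K : Set M, IsCompact K ∧ ∀ C : Set M, IsCompact C → ∃ g ∈ G, ∀ x ∈ C, g x ∈ K := by
  have hPE : ProperSpace E := FiniteDimensional.proper ℂ E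
  set f : M ≃ₘ^1⟮𝓘(ℂ, E), 𝓘(ℂ, E)⟯ M := (F.trans (half E)).trans F.symm with hf
  have h1 : ∀ (k : ℕ) (x : M), f^[k] x = F.symm (((1 / 2 : ℂ) ^ k) • F x) := by
    intro k x
    induction k with
    | zero => simp
    | succ k ih =>
      rw [Function.iterate_succ_apply', ih]
      change F.symm ((half E) (F (F.symm (((1 / 2 : ℂ) ^ k) • F x)))) = _
      rw [F.apply_symm_apply]
      change F.symm ((1 / 2 : ℂ) • ((1 / 2 : ℂ) ^ k • F x)) = _
      rw [smul_smul, pow_succ']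
  refine ⟨range (itd f), ?_, F.symm '' closedBall 0 1,
    (isCompact_closedBall 0 1).image F.symm.continuous, fun C hC => ?_⟩
  · rintro _ ⟨m, rfl⟩ _ ⟨n, rfl⟩ x
    rw [itd_apply, itd_apply, itd_apply, itd_apply, ← Function.iterate_add_apply,
      ← Function.iterate_add_apply, add_comm]
  · obtain ⟨R, hR⟩ := (hC.image F.continuous).isBounded.subset_closedBall 0
    have h2 : Tendsto (fun k : ℕ => (1 / 2 : ℝ) ^ k * |R|) atTop (𝓝 (0 * |R|)) :=
      (tendsto_pow_atTop_nhds_zero_of_lt_one (by norm_num) (by norm_num)).mul_const _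
    rw [zero_mul] at h2
    obtain ⟨k, hk⟩ := (h2.eventually (gt_mem_nhds one_pos)).exists
    refine ⟨itd f k, ⟨k, rfl⟩, fun x hx => ?_⟩
    rw [itd_apply, h1]
    refine mem_image_of_mem _ (mem_closedBall_zero_iff.2 ?_)
    have h3 : ‖F x‖ ≤ |R| := (mem_closedBall_zero_iff.1 (hR (mem_image_of_mem _ hx))).trans
      (le_abs_self R)
    have h4 : ‖((1 / 2 : ℂ) ^ k)‖ = (1 / 2 : ℝ) ^ k := by
      rw [norm_pow]; norm_num
    rw [norm_smul, h4]
    exact (mul_le_mul_of_nonneg_left h3 (by positivity)).trans hk.le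

variable [IsManifold 𝓘(ℝ, E) ∞ M]
  [RiemannianBundle (fun x : M => TangentSpace 𝓘(ℝ, E) x)]
  [IsContMDiffRiemannianBundle 𝓘(ℝ, E) ∞ E (fun x : M => TangentSpace 𝓘(ℝ, E) x)]
  [IsRiemannianManifold 𝓘(ℝ, E) M]

/-- near-maximum principle for all compact sets (positive bisectional curvature) -/
theorem nearMax_of_pos (hK : IsKahler E M) [CompleteSpace M] [NoncompactSpace M]
    [ConnectedSpace M] (hnn : ∀ x : M, NonnegBisectionalAt E x)
    (hpos : ∀ x : M, PosBisectionalAt E x) (Q : Set M) (hQ : IsCompact Q) :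
    ∃ q, NearMax E Q q := by
  have hP : ProperSpace M := properSpace_riemannian E M
  obtain ⟨x₀⟩ : Nonempty M := inferInstance
  obtain ⟨c, hc, L₀, hL₀, hlev⟩ := H348.levi_strict_compact hK hnn hQ fun x _ => hpos x
  obtain ⟨R, hR⟩ := hQ.isBounded.subset_closedBall x₀
  obtain ⟨q, hq⟩ := exists_far x₀ (R + L₀)
  refine ⟨q, fun ε hε => H805.near_max hK hQ hc (fun x hx => hlev x hx q ?_) hε⟩
  have h1 : dist x x₀ ≤ R := hR hx
  have h2 := dist_triangle x₀ x q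
  rw [dist_comm x₀ x] at h2
  linarith

/-- **self-maps with an absorbing compact set** -/
theorem attracts_of_pos (hK : IsKahler E M) [CompleteSpace M] [NoncompactSpace M]
    [ConnectedSpace M] (hnn : ∀ x : M, NonnegBisectionalAt E x)
    (hpos : ∀ x : M, PosBisectionalAt E x) (f : M → M) (hf : MDifferentiable 𝓘(ℂ, E) 𝓘(ℂ, E) f)
    (hmeet : ∃ K : Set M, IsCompact K ∧ ∀ x, ∃ k : ℕ, f^[k] x ∈ K) :
    ∃ p, f p = p ∧ ∀ C : Set M, IsCompact C → ∀ W ∈ 𝓝 p, ∀ᶠ k : ℕ in atTop, ∀ x ∈ C,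
      f^[k] x ∈ W := by
  have hP : ProperSpace M := properSpace_riemannian E M
  have hPE : ProperSpace E := FiniteDimensional.proper ℂ E
  exact attract_compact hf hmeet (nearMax_of_pos hK hnn hpos)

/-- **commuting families of automorphisms**, final form -/
theorem commuting_clause (hK : IsKahler E M) [CompleteSpace M] [NoncompactSpace M]
    [ConnectedSpace M] (hnn : ∀ x : M, NonnegBisectionalAt E x)
    (hpos : ∀ x : M, PosBisectionalAt E x) (G : Set (M ≃ₘ^1⟮𝓘(ℂ, E), 𝓘(ℂ, E)⟯ M))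
    (hcomm : ∀ g ∈ G, ∀ h ∈ G, ∀ x, g (h x) = h (g x))
    (hfam : ∃ K : Set M, IsCompact K ∧ ∀ C : Set M, IsCompact C → ∃ g ∈ G, ∀ x ∈ C, g x ∈ K) :
    ∃ p, (∀ g ∈ G, g p = p) ∧ ∃ F : M ≃ₘ^1⟮𝓘(ℂ, E), 𝓘(ℂ, E)⟯ E, F p = 0 ∧
      ∀ v : E, (mfderiv 𝓘(ℂ, E) 𝓘(ℂ, E) F p : E → E) v = v := by
  obtain ⟨K, hKc, h⟩ := hfam
  exact commuting hK hnn hpos hcomm hKc h

end Vale.Agent.P253.H89
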