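import Vale.Agent.P253.H89.Fam
import Vale.Agent.P253.H661.Basin

/-!
P253: commuting families of automorphisms which move every compact set into one compact set.
-/

open scoped Manifold ContDiff Topology Bundle
open Set Metric Complex Filter Bundle IsManifold Manifold Module Vale.Agent.P253.Mfd
  Vale.Agent.P253.H661

set_option maxSynthPendingDepth 3
set_option linter.unusedSectionVars false

noncomputable section

namespace Vale.Agent.P253.H89

open Vale.Agent.P253.R2 Vale.Agent.P253.S445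

variable {E : Type*} [NormedAddCommGroup E] [NormedSpace ℂ E] [FiniteDimensional ℂ E]
  {M : Type*} [MetricSpace M] [ChartedSpace E M]
  [IsManifold 𝓘(ℂ, E) 1 M]

/-- a map close to a constant contracts the tangent space -/
theorem contr_of_close {p : M} : ∃ C : Set M, IsCompact C ∧ ∃ W ∈ 𝓝 p, ∀ g : M → M,
    ContMDiff 𝓘(ℂ, E) 𝓘(ℂ, E) 1 g → (∀ x ∈ C, g x ∈ W) →
      ∀ v, ‖fderiv ℂ (RA E g p) 0 v‖ ≤ 1 / 4 * ‖v‖ := by
  have hPE : ProperSpace E := FiniteDimensional.proper ℂ E
  have hps : p ∈ (chartAt E p).source := mem_chart_source E p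
  set e := chartAt E p with he
  obtain ⟨r, hr, hball⟩ := Metric.nhds_basis_closedBall.mem_iff.1
    (e.open_target.mem_nhds (e.map_source hps))
  refine ⟨e.symm '' closedBall (e p) r, (isCompact_closedBall _ _).image_of_continuousOn
    (e.continuousOn_symm.mono hball), e.source ∩ e ⁻¹' ball (e p) (r / 4), ?_,
    fun g hg hgW v => ?_⟩
  · exact inter_mem (e.open_source.mem_nhds hps)
      ((e.continuousAt hps).preimage_mem_nhds (ball_mem_nhds _ (by positivity)))
  · have hu : ∀ u ∈ closedBall (0:E) r, u + e p ∈ closedBall (e p) r := by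
      intro u hu
      rw [mem_closedBall, dist_eq_norm, add_sub_cancel_right]
      simpa using hu
    have h1 : ∀ u ∈ closedBall (0:E) r, DifferentiableAt ℂ (RA E g p) u := fun u hu' =>
      differentiableAt_RA hg (hball (hu u hu')) (hgW _ ⟨_, hu u hu', rfl⟩).1
    have h2 : ∀ u ∈ closedBall (0:E) r, ‖RA E g p u‖ ≤ r / 4 := by
      intro u hu'
      have h3 := (hgW _ ⟨_, hu u hu', rfl⟩).2
      rw [mem_preimage, mem_ball, dist_eq_norm] at h3
      exact h3.le
    have h3 := cauchy_fderiv hr (by positivity) h1 h2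
    have h4 : r / 4 / r = 1 / 4 := by field_simp
    rw [h4] at h3
    exact (ContinuousLinearMap.le_opNorm _ v).trans (mul_le_mul_of_nonneg_right h3 (norm_nonneg _))

/-- local convergence of the iterates of a map which contracts the tangent space -/
theorem local_conv {p : M} {g : M → M} (hg : ContMDiff 𝓘(ℂ, E) 𝓘(ℂ, E) 1 g) (hp : g p = p)
    (hD : ∀ v, ‖fderiv ℂ (RA E g p) 0 v‖ ≤ 1 / 4 * ‖v‖) :
    ∃ V ∈ 𝓝 p, ∀ x ∈ V, Tendsto (fun k : ℕ => g^[k] x) atTop (𝓝 p) := by
  have hps : p ∈ (chartAt E p).source := mem_chart_source E p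
  have h1 := ev_norm_le (hasFDerivAt_RA (E := E) hg hp) (RA_zero hp)
    (show (1 / 4 : ℝ) < 1 / 2 by norm_num) hD
  obtain ⟨δ, hδ, hball⟩ := Metric.eventually_nhds_iff_ball.1
    (h1.and (ev_dom (E := E) hg.continuous hp))
  set e := chartAt E p with he
  set V : Set M := e.source ∩ e ⁻¹' ball (e p) δ with hV
  have hVn : V ∈ 𝓝 p := inter_mem (e.open_source.mem_nhds hps)
    ((e.continuousAt hps).preimage_mem_nhds (ball_mem_nhds _ hδ))
  have hstep : ∀ x ∈ V, g x ∈ e.source ∧ ‖e (g x) - e p‖ ≤ 1 / 2 * ‖e x - e p‖ := by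
    rintro x ⟨hxs, hx⟩
    rw [mem_preimage, mem_ball, dist_eq_norm] at hx
    obtain ⟨h2, h3, h4⟩ := hball (e x - e p) (by rwa [mem_ball_zero_iff])
    rw [sub_add_cancel, e.left_inv hxs] at h4
    refine ⟨h4, ?_⟩
    simp only [RA] at h2
    rwa [← he, sub_add_cancel, e.left_inv hxs] at h2
  refine ⟨V, hVn, fun x hx => ?_⟩
  have hind : ∀ k : ℕ, g^[k] x ∈ V ∧ ‖e (g^[k] x) - e p‖ ≤ (1 / 2) ^ k * δ := by
    intro k
    induction k with
    | zero =>
      refine ⟨hx, ?_⟩
      have := hx.2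
      rw [mem_preimage, mem_ball, dist_eq_norm] at this
      simpa using this.le
    | succ k ih =>
      rw [Function.iterate_succ_apply']
      obtain ⟨h2, h3⟩ := hstep _ ih.1
      have h4 : ‖e (g^[k] x) - e p‖ < δ := by
        have := ih.1.2
        rwa [mem_preimage, mem_ball, dist_eq_norm] at this
      refine ⟨⟨h2, ?_⟩, ?_⟩
      · rw [mem_preimage, mem_ball, dist_eq_norm]
        have := norm_nonneg (e (g^[k] x) - e p)
        linarith
      · calc ‖e (g (g^[k] x)) - e p‖ ≤ 1 / 2 * ‖e (g^[k] x) - e p‖ := h3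
          _ ≤ 1 / 2 * ((1 / 2) ^ k * δ) := mul_le_mul_of_nonneg_left ih.2 (by norm_num)
          _ = (1 / 2) ^ (k + 1) * δ := by ring
  have h2 : Tendsto (fun k : ℕ => e (g^[k] x)) atTop (𝓝 (e p)) := by
    rw [tendsto_iff_norm_sub_tendsto_zero]
    have h3 : Tendsto (fun k : ℕ => (1 / 2 : ℝ) ^ k * δ) atTop (𝓝 0) := by
      have := (tendsto_pow_atTop_nhds_zero_of_lt_one (show (0:ℝ) ≤ 1 / 2 by norm_num)
        (by norm_num)).mul_const δ
      simpa using this
    exact squeeze_zero (fun k => norm_nonneg _) (fun k => (hind k).2) h3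
  have h3 := (e.continuousAt_symm (e.map_source hps)).tendsto.comp h2
  rw [e.left_inv hps] at h3
  refine h3.congr fun k => ?_
  simp only [Function.comp]
  exact e.left_inv (hind k).1.1

variable [IsManifold 𝓘(ℝ, E) ∞ M]
  [RiemannianBundle (fun x : M => TangentSpace 𝓘(ℝ, E) x)]
  [IsContMDiffRiemannianBundle 𝓘(ℝ, E) ∞ E (fun x : M => TangentSpace 𝓘(ℝ, E) x)]
  [IsRiemannianManifold 𝓘(ℝ, E) M]

/-- **commuting families of automorphisms** which move every compact set into one compact set -/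
theorem commuting (hK : IsKahler E M) [CompleteSpace M] [NoncompactSpace M] [ConnectedSpace M]
    (hnn : ∀ x : M, NonnegBisectionalAt E x) (hpos : ∀ x : M, PosBisectionalAt E x)
    {G : Set (M ≃ₘ^1⟮𝓘(ℂ, E), 𝓘(ℂ, E)⟯ M)} (hcomm : ∀ g ∈ G, ∀ h ∈ G, ∀ x, g (h x) = h (g x))
    {K : Set M} (hKc : IsCompact K)
    (hfam : ∀ C : Set M, IsCompact C → ∃ g ∈ G, ∀ x ∈ C, g x ∈ K) :
    ∃ p, (∀ h ∈ G, h p = p) ∧ ∃ F : M ≃ₘ^1⟮𝓘(ℂ, E), 𝓘(ℂ, E)⟯ E, F p = 0 ∧
      ∀ v : E, (mfderiv 𝓘(ℂ, E) 𝓘(ℂ, E) F p : E → E) v = v := by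
  have hP : ProperSpace M := properSpace_riemannian E M
  obtain ⟨x₀⟩ : Nonempty M := inferInstance
  have hle : (hyperfilter ℕ : Filter ℕ) ≤ atTop := Nat.hyperfilter_le_atTop
  choose gs hgsG hgs using fun n : ℕ => hfam (closedBall x₀ n) (isCompact_closedBall _ _)
  have hgK : ∀ C : Set M, IsCompact C → ∀ᶠ j in atTop, ∀ x ∈ C, gs j x ∈ K := by
    intro C hC
    obtain ⟨R, hR⟩ := hC.isBounded.subset_closedBall x₀
    obtain ⟨N, hN⟩ := exists_nat_ge R
    filter_upwards [eventually_ge_atTop N] with j hj x hx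
    exact hgs j x (closedBall_subset_closedBall (hN.trans (by exact_mod_cast hj)) (hR hx))
  obtain ⟨p, -, hp⟩ := exists_limit hK hnn hpos hKc (g := fun j => gs j)
    (fun j => (gs j).contMDiff.mdifferentiable (by simp)) hgK
  have hlim : ∀ x, Tendsto (fun j => gs j x) (hyperfilter ℕ) (𝓝 p) := by
    intro x
    rw [tendsto_def]
    intro W hW
    filter_upwards [hp {x} isCompact_singleton W hW] with j hj
    exact hj x rfl
  have hfix : ∀ h ∈ G, h p = p := by
    intro h hh
    have h1 : Tendsto (fun j => h (gs j p)) (hyperfilter ℕ) (𝓝 (h p)) :=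
      (h.continuous.tendsto p).comp (hlim p)
    have h2 : (fun j => h (gs j p)) = fun j => gs j (h p) :=
      funext fun j => (hcomm _ (hgsG j) _ hh p).symm
    rw [h2] at h1
    exact tendsto_nhds_unique h1 (hlim (h p))
  refine ⟨p, hfix, ?_⟩
  obtain ⟨C, hC, W, hW, hD⟩ := contr_of_close (E := E) (p := p)
  obtain ⟨j, hj⟩ := (hp C hC W hW).exists
  set g := gs j with hg
  have hgp : g p = p := hfix g (hgsG j)
  have hDg := hD g g.contMDiff hj
  obtain ⟨V, hV, hVc⟩ := local_conv (E := E) g.contMDiff hgp hDg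
  have hbas : ∀ x, Tendsto (fun k : ℕ => g^[k] x) atTop (𝓝 p) := by
    intro x
    obtain ⟨i, hi⟩ := ((hlim x).eventually hV).exists
    set h := gs i with hh
    have hhG : h ∈ G := hgsG i
    have hcommk : ∀ k : ℕ, h (g^[k] x) = g^[k] (h x) := by
      intro k
      induction k with
      | zero => rfl
      | succ k ih =>
        rw [Function.iterate_succ_apply', Function.iterate_succ_apply', ← ih]
        exact hcomm _ hhG _ (hgsG j) _
    have h1 := hVc _ hi
    have h2 : h.symm p = p := by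
      conv_lhs => rw [← hfix h hhG]
      exact h.symm_apply_apply p
    have h3 : Tendsto (fun k : ℕ => h.symm (g^[k] (h x))) atTop (𝓝 (h.symm p)) :=
      (h.symm.continuous.tendsto p).comp h1
    rw [h2] at h3
    refine h3.congr fun k => ?_
    rw [← hcommk k]
    exact h.symm_apply_apply _
  obtain ⟨F, h0, h1⟩ := basin_contr g hgp (b := 1 / 4) (by norm_num) hDg hbas
  exact ⟨F, h0, fun v => by rw [h1.mfderiv]; rfl⟩

end Vale.Agent.P253.H89
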