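import Vale.Agent.P253.H805.Near
import Vale.Agent.P253.H89.Dyn

/-!
P253: holomorphic discs in a compact set are equicontinuous (positive bisectional curvature).
-/

open scoped Manifold ContDiff Topology Bundle
open Set Metric Complex Filter Bundle IsManifold Manifold Module Vale.Agent.P253.Mfd
  Vale.Agent.P253.H805

set_option maxSynthPendingDepth 3
set_option linter.unusedSectionVars false

noncomputable section

namespace Vale.Agent.P253.H89

variable {E : Type*} [NormedAddCommGroup E] [NormedSpace ℂ E] [FiniteDimensional ℂ E]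
  {M : Type*} [MetricSpace M] [ChartedSpace E M]
  [IsManifold 𝓘(ℂ, E) 1 M] [IsManifold 𝓘(ℝ, E) ∞ M]
  [RiemannianBundle (fun x : M => TangentSpace 𝓘(ℝ, E) x)]
  [IsContMDiffRiemannianBundle 𝓘(ℝ, E) ∞ E (fun x : M => TangentSpace 𝓘(ℝ, E) x)]
  [IsRiemannianManifold 𝓘(ℝ, E) M]

/-- **equicontinuity** of the holomorphic discs in a compact set in which the distance to `q` is
strictly superharmonic -/
theorem equi (hK : IsKahler E M) {Q : Set M} (hQ : IsCompact Q) {q : M} {c : ℝ} (hc : 0 < c)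
    (hlev : ∀ x ∈ Q, LeviBound (E := E) q x (-c)) {ε : ℝ} (hε : 0 < ε) :
    ∃ t₀ > 0, ∀ g : ℂ → M,
      (∀ z ∈ closedBall (0:ℂ) 1, MDifferentiableAt 𝓘(ℂ, ℂ) 𝓘(ℂ, E) g z) →
      (∀ z ∈ closedBall (0:ℂ) 1, g z ∈ Q) → ∀ z ∈ closedBall (0:ℂ) t₀,
      dist (g 0) (g z) < ε := by
  obtain ⟨R, hR⟩ := hQ.isBounded.subset_closedBall q
  have hR' : ∀ x ∈ Q, dist x q ≤ R := fun x hx => hR hx
  suffices H : ∃ t₀ > 0, ∀ g : ℂ → M,
      (∀ z ∈ closedBall (0:ℂ) 1, MDifferentiableAt 𝓘(ℂ, ℂ) 𝓘(ℂ, E) g z) →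
      (∀ z ∈ closedBall (0:ℂ) 1, g z ∈ Q) → g 0 ∈ Q → ∀ z ∈ closedBall (0:ℂ) t₀,
      dist (g 0) (g z) < ε by
    obtain ⟨t₀, ht₀, H⟩ := H
    exact ⟨t₀, ht₀, fun g h1 h2 => H g h1 h2 (h2 0 (by simp))⟩
  refine hQ.induction_on (p := fun S => ∃ t₀ > 0, ∀ g : ℂ → M,
      (∀ z ∈ closedBall (0:ℂ) 1, MDifferentiableAt 𝓘(ℂ, ℂ) 𝓘(ℂ, E) g z) →
      (∀ z ∈ closedBall (0:ℂ) 1, g z ∈ Q) → g 0 ∈ S → ∀ z ∈ closedBall (0:ℂ) t₀,
      dist (g 0) (g z) < ε) ?_ ?_ ?_ ?_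
  · exact ⟨1, one_pos, fun g _ _ h => absurd h (notMem_empty _)⟩
  · rintro S T hST ⟨t, ht, H⟩
    exact ⟨t, ht, fun g h1 h2 h3 => H g h1 h2 (hST h3)⟩
  · rintro S T ⟨t, ht, H⟩ ⟨t', ht', H'⟩
    refine ⟨min t t', lt_min ht ht', fun g h1 h2 h3 z hz => ?_⟩
    rcases h3 with h3 | h3
    · exact H g h1 h2 h3 z (closedBall_subset_closedBall (min_le_left _ _) hz)
    · exact H' g h1 h2 h3 z (closedBall_subset_closedBall (min_le_right _ _) hz)
  intro x₁ _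
  have he : chartAt E x₁ ∈ maximalAtlas 𝓘(ℂ, E) 1 M := chart_mem_maximalAtlas x₁
  have hx₁ : x₁ ∈ (chartAt E x₁).source := mem_chart_source E x₁
  set e := chartAt E x₁ with hed
  have hLK := localKahler_chartG hK he
  set ψ : E ≃L[ℂ] EuclideanSpace ℂ (Fin (finrank ℂ E)) :=
    ContinuousLinearEquiv.ofFinrankEq (by simp) with hψ
  -- a closed chart ball
  obtain ⟨r, hr, hrt⟩ : ∃ r > 0, cb ψ (e x₁) (2 * r) ⊆ e.target := by
    have h1 : Tendsto (fun v => e x₁ + ψ.symm v) (𝓝 0) (𝓝 (e x₁)) := by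
      have h2 : Continuous (fun v => e x₁ + ψ.symm v) := by fun_prop
      have := h2.tendsto 0
      simpa using this
    have h2 : ∀ᶠ v in 𝓝 0, e x₁ + ψ.symm v ∈ e.target :=
      h1.eventually (e.open_target.mem_nhds (e.map_source hx₁))
    obtain ⟨r, hr, hrb⟩ := Metric.eventually_nhds_iff_ball.1 h2
    refine ⟨r / 4, by positivity, fun y hy => ?_⟩
    have h3 := hrb (ψ (y - e x₁)) (by
      rw [mem_ball_zero_iff]
      have : ‖ψ (y - e x₁)‖ ≤ 2 * (r / 4) := hy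
      linarith)
    simpa using h3
  set B := cb ψ (e x₁) (2 * r) with hB
  have hBc : IsCompact B := isCompact_cb
  obtain ⟨m₀, hm₀, hlow⟩ := hLK.exists_lower hBc hrt
  set L : ℝ := ‖(ψ : E →L[ℂ] EuclideanSpace ℂ (Fin (finrank ℂ E)))‖ + 1 with hL
  have hL0 : 0 < L := by positivity
  set m : ℝ := L ^ 2 / m₀ with hm
  have hm0 : 0 < m := by positivity
  have hmB : ∀ y ∈ B, ∀ Y, ‖ψ Y‖ ^ 2 ≤ m * chartG e y Y Y := by
    intro y hy Y
    have h1 := hlow y hy Y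
    have h2 : ‖ψ Y‖ ≤ L * ‖Y‖ :=
      ((ψ : E →L[ℂ] EuclideanSpace ℂ (Fin (finrank ℂ E))).le_opNorm Y).trans
        (mul_le_mul_of_nonneg_right (by rw [hL]; linarith) (norm_nonneg _))
    calc ‖ψ Y‖ ^ 2 ≤ (L * ‖Y‖) ^ 2 := pow_le_pow_left₀ (norm_nonneg _) h2 2
      _ = m * (m₀ * ‖Y‖ ^ 2) := by rw [hm]; field_simp
      _ ≤ _ := mul_le_mul_of_nonneg_left h1 hm0.le
  -- uniform continuity of the inverse chart
  have huc : UniformContinuousOn e.symm B :=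
    hBc.uniformContinuousOn_of_continuous (e.continuousOn_symm.mono hrt)
  obtain ⟨δ, hδ, hδb⟩ := Metric.uniformContinuousOn_iff.1 huc ε hε
  set L' : ℝ := ‖(ψ.symm : EuclideanSpace ℂ (Fin (finrank ℂ E)) →L[ℂ] E)‖ + 1 with hL'
  have hL'0 : 0 < L' := by positivity
  set ρ : ℝ := min r (δ / L') with hρd
  have hρ : 0 < ρ := lt_min hr (by positivity)
  have hρr : ρ ≤ r := min_le_left _ _
  have hρδ : ρ * L' ≤ δ := by
    have h1 : ρ ≤ δ / L' := min_le_right _ _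
    rwa [le_div_iff₀ hL'0] at h1
  set lam : ℝ := 4 * m / ρ ^ 2 / c with hlam
  have hlam0 : 0 < lam := by positivity
  have hlamc : lam * c = 4 * m / ρ ^ 2 := by rw [hlam]; field_simp
  -- the radius of the disc
  obtain ⟨t₀, ht₀, ht₀1, ht₀e⟩ : ∃ t₀ > 0, t₀ ≤ 1 ∧ t₀ ^ 2 * Real.exp (lam * R) < 1 := by
    have h1 : Tendsto (fun t : ℝ => t ^ 2 * Real.exp (lam * R)) (𝓝[>] 0) (𝓝 0) := by
      have hc2 : Continuous (fun t : ℝ => t ^ 2 * Real.exp (lam * R)) := by fun_prop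
      have := (hc2.tendsto 0).mono_left (nhdsWithin_le_nhds (s := Ioi (0:ℝ)))
      simpa using this
    obtain ⟨t, h2, h3⟩ := ((h1.eventually (gt_mem_nhds one_pos)).and
      (Ioo_mem_nhdsGT (show (0:ℝ) < 1 from one_pos))).exists
    exact ⟨t, h3.1, h3.2.le, h2⟩
  refine ⟨{x | x ∈ e.source ∧ ‖ψ (e x - e x₁)‖ < r}, mem_nhdsWithin_of_mem_nhds ?_, t₀,
    ht₀, ?_⟩
  · have h1 : ContinuousAt (fun x => ‖ψ (e x - e x₁)‖) x₁ :=
      (ψ.continuous.continuousAt.comp ((e.continuousAt hx₁).sub continuousAt_const)).norm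
    have h2 : ∀ᶠ x in 𝓝 x₁, ‖ψ (e x - e x₁)‖ < r :=
      h1.eventually (eventually_lt_nhds (by simpa using hr))
    have h3 : ∀ᶠ x in 𝓝 x₁, x ∈ e.source := e.open_source.mem_nhds hx₁
    exact h3.and h2
  rintro g hg hgQ ⟨h0s, h0r⟩ z hz
  have hzn : ‖z‖ ≤ t₀ := by simpa using hz
  have hz1 : z ∈ closedBall (0:ℂ) 1 := closedBall_subset_closedBall ht₀1 hz
  have hsub : cb ψ (e (g 0)) ρ ⊆ B := by
    intro y hy
    have h1 : ‖ψ (y - e (g 0))‖ ≤ ρ := hy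
    have h2 : ψ (y - e x₁) = ψ (y - e (g 0)) + ψ (e (g 0) - e x₁) := by
      rw [← map_add, sub_add_sub_cancel]
    change ‖ψ (y - e x₁)‖ ≤ 2 * r
    rw [h2]
    refine (norm_add_le _ _).trans ?_
    linarith
  have h1 := sib hK he (ψ := ψ) hρ hc hlam0.le hlamc hlev h0s (hsub.trans hrt)
    (fun y hy => hmB y (hsub hy)) hg hgQ (S := 0)
    (fun w _ => dist_nonneg) (z := z) (hzn.trans ht₀1)
  have h3 : th e ψ (e (g 0)) ρ (g z) < 1 := by
    refine h1.trans_lt (lt_of_le_of_lt ?_ ht₀e)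
    have h5 : ‖z‖ ^ 2 ≤ t₀ ^ 2 := pow_le_pow_left₀ (norm_nonneg _) hzn 2
    have h6 : Real.exp (lam * (dist (g z) q - 0)) ≤ Real.exp (lam * R) := by
      apply Real.exp_le_exp.2
      rw [sub_zero]
      exact mul_le_mul_of_nonneg_left (hR' _ (hgQ z hz1)) hlam0.le
    exact mul_le_mul h5 h6 (Real.exp_pos _).le (sq_nonneg _)
  have h4 : g z ∈ db e ψ (e (g 0)) ρ := by
    by_contra h5
    rw [th_of_notMem_db hρ h5] at h3
    exact lt_irrefl _ h3
  have h5 : ‖ψ (e (g z) - e (g 0))‖ < ρ := by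
    rw [th_of_mem h4.1] at h3
    have h6 : ‖ψ (e (g z) - e (g 0))‖ ^ 2 / ρ ^ 2 < 1 := by
      rcases min_lt_iff.1 h3 with h7 | h7
      · exact h7
      · exact absurd h7 (lt_irrefl _)
    rw [div_lt_one (by positivity)] at h6
    exact lt_of_pow_lt_pow_left₀ 2 hρ.le h6
  have h6 : dist (e (g 0)) (e (g z)) < δ := by
    have h7 : e (g z) - e (g 0) = ψ.symm (ψ (e (g z) - e (g 0))) := by simp
    rw [dist_comm, dist_eq_norm, h7]
    refine ((ψ.symm : EuclideanSpace ℂ (Fin (finrank ℂ E)) →L[ℂ] E).le_opNorm _).trans_lt ?_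
    refine lt_of_le_of_lt (mul_le_mul_of_nonneg_right (show
      ‖(ψ.symm : EuclideanSpace ℂ (Fin (finrank ℂ E)) →L[ℂ] E)‖ ≤ L' by rw [hL']; linarith)
      (norm_nonneg _)) ?_
    calc L' * ‖ψ (e (g z) - e (g 0))‖ < L' * ρ := mul_lt_mul_of_pos_left h5 hL'0
      _ ≤ δ := by linarith
  have h0B : e (g 0) ∈ B := hsub (by
    change ‖ψ (e (g 0) - e (g 0))‖ ≤ ρ
    simpa using hρ.le)
  have h7 := hδb (e (g 0)) h0B (e (g z)) (hsub h4.2) h6
  rwa [e.left_inv h0s, e.left_inv h4.1] at h7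

variable (E) in
/-- equicontinuity of the holomorphic discs in `Q` -/
def EquiDiscs (Q : Set M) : Prop :=
  ∀ ε > 0, ∃ t₀ > 0, ∀ g : ℂ → M,
    (∀ z ∈ closedBall (0:ℂ) 1, MDifferentiableAt 𝓘(ℂ, ℂ) 𝓘(ℂ, E) g z) →
    (∀ z ∈ closedBall (0:ℂ) 1, g z ∈ Q) → ∀ z ∈ closedBall (0:ℂ) t₀, dist (g 0) (g z) < ε

omit [FiniteDimensional ℂ E] [IsManifold 𝓘(ℂ, E) 1 M] [IsManifold 𝓘(ℝ, E) ∞ M]
  [RiemannianBundle (fun x : M => TangentSpace 𝓘(ℝ, E) x)]
  [IsContMDiffRiemannianBundle 𝓘(ℝ, E) ∞ E (fun x : M => TangentSpace 𝓘(ℝ, E) x)]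
  [IsRiemannianManifold 𝓘(ℝ, E) M] in
/-- small discs in charts, with the second point near the centre of the disc -/
theorem exists_discs' [ProperSpace E] [IsManifold 𝓘(ℂ, E) 1 M] (x₁ : M) :
    ∃ B : Set M, IsCompact B ∧ ∀ t > 0, ∃ U ∈ 𝓝 x₁, ∀ x ∈ U, ∀ y ∈ U, ∃ γ : ℂ → M,
      (∀ z ∈ closedBall (0:ℂ) 1, MDifferentiableAt 𝓘(ℂ, ℂ) 𝓘(ℂ, E) γ z) ∧
      (∀ z ∈ closedBall (0:ℂ) 1, γ z ∈ B) ∧ γ 0 = y ∧ ∃ z ∈ closedBall (0:ℂ) t, γ z = x := by
  set e := chartAt E x₁ with he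
  have hx : x₁ ∈ e.source := mem_chart_source E x₁
  obtain ⟨r, hr, hball⟩ := Metric.nhds_basis_closedBall.mem_iff.1
    (e.open_target.mem_nhds (e.map_source hx))
  refine ⟨e.symm '' closedBall (e x₁) r, (isCompact_closedBall _ _).image_of_continuousOn
    (e.continuousOn_symm.mono hball), fun t' ht' => ?_⟩
  set t : ℝ := min t' 1 with ht
  have ht0 : 0 < t := lt_min ht' one_pos
  have ht1 : t ≤ 1 := min_le_right _ _
  refine ⟨e.source ∩ e ⁻¹' ball (e x₁) (t * r / 8), ?_, ?_⟩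
  · exact inter_mem (e.open_source.mem_nhds hx)
      ((e.continuousAt hx).preimage_mem_nhds (ball_mem_nhds _ (by positivity)))
  · rintro x ⟨hxs, hx2⟩ y ⟨hys, hy2⟩
    rw [mem_preimage, mem_ball, dist_eq_norm] at hx2 hy2
    set a : ℂ → E := fun z => e y + (z / t) • (e x - e y) with ha
    have htr : t * r ≤ r := by nlinarith
    have hamem : ∀ z ∈ closedBall (0:ℂ) 1, a z ∈ closedBall (e x₁) r := by
      intro z hz
      rw [mem_closedBall, dist_zero_right] at hz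
      rw [mem_closedBall, dist_eq_norm]
      have e1 : a z - e x₁ = (e y - e x₁) + (z / t) • ((e x - e x₁) - (e y - e x₁)) := by
        simp only [ha]
        rw [sub_sub_sub_cancel_right]
        abel
      rw [e1]
      have h1 : ‖(z / t) • ((e x - e x₁) - (e y - e x₁))‖ ≤
          (‖e x - e x₁‖ + ‖e y - e x₁‖) / t := by
        rw [norm_smul, norm_div, norm_real, Real.norm_of_nonneg ht0.le, div_mul_eq_mul_div]
        have h3 := norm_sub_le (e x - e x₁) (e y - e x₁)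
        apply div_le_div_of_nonneg_right _ ht0.le
        calc ‖z‖ * ‖(e x - e x₁) - (e y - e x₁)‖ ≤ 1 * ‖(e x - e x₁) - (e y - e x₁)‖ :=
              mul_le_mul_of_nonneg_right hz (norm_nonneg _)
          _ ≤ _ := by rw [one_mul]; exact h3
      refine (norm_add_le _ _).trans ?_
      have h2 : (‖e x - e x₁‖ + ‖e y - e x₁‖) / t ≤ r / 4 := by
        rw [div_le_iff₀ ht0]
        linarith
      linarith
    refine ⟨fun z => e.symm (a z), fun z hz => ?_, fun z hz => ⟨a z, hamem z hz, rfl⟩, ?_,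
      (t : ℂ), ?_, ?_⟩
    · have h1 : MDifferentiableAt 𝓘(ℂ, E) 𝓘(ℂ, E) e.symm (a z) :=
        mdifferentiableAt_atlas_symm (I := 𝓘(ℂ, E)) (chart_mem_atlas E x₁) (hball (hamem z hz))
      have h2 : MDifferentiableAt 𝓘(ℂ, ℂ) 𝓘(ℂ, E) a z := by
        have h3 : DifferentiableAt ℂ a z := by
          simp only [ha]
          fun_prop
        exact h3.mdifferentiableAt
      exact h1.comp z h2
    · simp [ha, e.left_inv hys]
    · rw [mem_closedBall, dist_zero_right, norm_real, Real.norm_of_nonneg ht0.le]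
      exact min_le_left _ _
    · have e1 : a (t : ℂ) = e x := by
        have htc : (t : ℂ) ≠ 0 := by exact_mod_cast ht0.ne'
        simp only [ha]
        rw [div_self htc, one_smul]
        abel
      simp only [e1, e.left_inv hxs]

end Vale.Agent.P253.H89
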