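import Vale.Agent.P253.MathlibUsed

/-!
P253: functions on the plane which are subharmonic in the sense of four point sums.
-/

open scoped Topology ComplexConjugate
open Filter Set Metric Complex

noncomputable section

namespace Vale.Agent.P253.H89

/-- the four point Laplacian of `u` at `z` is at least `A` (multiplied by `r ^ 2`, in the limit) -/
def Sub4 (u : ℂ → ℝ) (z : ℂ) (A : ℝ) : Prop :=
  ∀ η > 0, ∀ᶠ r : ℝ in 𝓝[>] (0:ℝ),
    4 * u z + (A - η) * r ^ 2 ≤ ∑ k : Fin 4, u (z + r * I ^ (k:ℕ))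

theorem Sub4.mono {u v : ℂ → ℝ} {z : ℂ} {A B : ℝ} (h : Sub4 u z A) (hBA : B ≤ A)
    (huv : ∀ᶠ w in 𝓝 z, u w ≤ v w) (hz : v z ≤ u z) : Sub4 v z B := by
  intro η hη
  have h1 : ∀ᶠ r : ℝ in 𝓝[>] (0:ℝ), ∀ k : Fin 4, u (z + r * I ^ (k:ℕ)) ≤ v (z + r * I ^ (k:ℕ)) := by
    apply eventually_all.2
    intro k
    have hc : Continuous (fun r : ℝ => z + r * I ^ (k:ℕ)) :=
      continuous_const.add (continuous_ofReal.mul continuous_const)
    have h0 : Tendsto (fun r : ℝ => z + r * I ^ (k:ℕ)) (𝓝[>] (0:ℝ)) (𝓝 z) := by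
      have := (hc.tendsto 0).mono_left (nhdsWithin_le_nhds (s := Ioi (0:ℝ)))
      simpa using this
    exact h0.eventually huv
  filter_upwards [h η hη, h1] with r hr hr1
  have h2 := Finset.sum_le_sum (s := Finset.univ) fun (k : Fin 4) _ => hr1 k
  have h3 : (B - η) * r ^ 2 ≤ (A - η) * r ^ 2 :=
    mul_le_mul_of_nonneg_right (by linarith) (sq_nonneg r)
  linarith

theorem Sub4.congr {u v : ℂ → ℝ} {z : ℂ} {A : ℝ} (h : Sub4 u z A)
    (huv : ∀ᶠ w in 𝓝 z, u w = v w) : Sub4 v z A :=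
  h.mono le_rfl (huv.mono fun _ h => h.le) (huv.self_of_nhds).ge

theorem Sub4.add {u v : ℂ → ℝ} {z : ℂ} {A B : ℝ} (h : Sub4 u z A) (h' : Sub4 v z B) :
    Sub4 (fun w => u w + v w) z (A + B) := by
  intro η hη
  filter_upwards [h (η / 2) (half_pos hη), h' (η / 2) (half_pos hη)] with r h1 h2
  rw [Finset.sum_add_distrib]
  nlinarith

theorem Sub4.const_mul {u : ℂ → ℝ} {z : ℂ} {A : ℝ} (h : Sub4 u z A) {c : ℝ} (hc : 0 < c) :
    Sub4 (fun w => c * u w) z (c * A) := by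
  intro η hη
  filter_upwards [h (η / c) (div_pos hη hc)] with r h1
  rw [← Finset.mul_sum]
  have h2 := mul_le_mul_of_nonneg_left h1 hc.le
  have h3 : c * (η / c) = η := by field_simp
  nlinarith

theorem sub4_const (c : ℝ) (z : ℂ) : Sub4 (fun _ => c) z 0 := by
  intro η hη
  filter_upwards with r
  rw [Fin.sum_univ_four]
  nlinarith [mul_nonneg hη.le (sq_nonneg r)]

theorem sub4_normSq (z : ℂ) : Sub4 (fun w => ‖w‖ ^ 2) z 4 := by
  intro η hη
  filter_upwards with r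
  rw [Fin.sum_univ_four]
  have h3 : (I : ℂ) ^ 3 = -I := by rw [pow_succ, I_sq]; ring
  simp only [Fin.val_zero, Fin.val_one, Fin.val_two, pow_zero, pow_one, I_sq,
    show ((3 : Fin 4) : ℕ) = 3 from rfl, h3, ← normSq_eq_norm_sq, normSq_apply, add_re, add_im,
    mul_re, mul_im, ofReal_re, ofReal_im, one_re, one_im, I_re, I_im, neg_re, neg_im]
  nlinarith [mul_nonneg hη.le (sq_nonneg r)]

/-- the Taylor expansion of a holomorphic function along the four points -/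
theorem taylor4 {H : ℂ → ℂ} {z : ℂ} (hH : ∀ᶠ w in 𝓝 z, DifferentiableAt ℂ H w) :
    ∃ a C : ℂ, 0 ≤ C.re ∧ ∀ᶠ r : ℝ in 𝓝[>] (0:ℝ), ∀ k : Fin 4,
      ‖H (z + r * I ^ (k:ℕ)) - H z - r * I ^ (k:ℕ) * deriv H z - (r * I ^ (k:ℕ)) ^ 2 * a‖
        ≤ C.re * r ^ 3 := by
  have han : AnalyticAt ℂ H z := by
    obtain ⟨s, hs, hso, hzs⟩ := _root_.eventually_nhds_iff.1 hH
    have hd : DifferentiableOn ℂ H s := fun w hw => (hs w hw).differentiableWithinAt
    exact hd.analyticAt (hso.mem_nhds hzs)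
  obtain ⟨p, hp⟩ := han
  have h1 := hp.isBigO_sub_partialSum_pow 3
  obtain ⟨C, hC, hb⟩ := h1.exists_nonneg
  have h2 := hb.bound
  have hc0 : p.coeff 0 = H z := hp.coeff_zero (fun _ => 1)
  have hc1 : p.coeff 1 = deriv H z := hp.deriv.symm
  refine ⟨p.coeff 2, C, by simpa using hC, ?_⟩
  apply eventually_all.2
  intro k
  have hcont : Continuous (fun r : ℝ => (r : ℂ) * I ^ (k:ℕ)) := continuous_ofReal.mul continuous_const
  have h0 : Tendsto (fun r : ℝ => (r : ℂ) * I ^ (k:ℕ)) (𝓝[>] (0:ℝ)) (𝓝 0) := by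
    have := (hcont.tendsto 0).mono_left (nhdsWithin_le_nhds (s := Ioi (0:ℝ)))
    simpa using this
  filter_upwards [h0.eventually h2, self_mem_nhdsWithin] with r hr hr0
  have hr0' : (0:ℝ) < r := hr0
  have hn : ‖(r : ℂ) * I ^ (k:ℕ)‖ = r := by
    rw [norm_mul, norm_pow, norm_I, one_pow, mul_one, norm_real, Real.norm_of_nonneg hr0'.le]
  rw [FormalMultilinearSeries.partialSum, Finset.sum_range_succ, Finset.sum_range_succ,
    Finset.sum_range_succ, Finset.sum_range_zero] at hr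
  simp only [FormalMultilinearSeries.apply_eq_pow_smul_coeff, smul_eq_mul, pow_zero, one_mul,
    pow_one, zero_add, hc0, hc1] at hr
  rw [norm_pow, norm_norm, hn] at hr
  simp only [ofReal_re]
  refine le_trans (le_of_eq ?_) hr
  congr 1
  ring

theorem sum_re_four (f : Fin 4 → ℂ) : (∑ k, f k).re = ∑ k, (f k).re := by
  simp

/-- the real part of a holomorphic function is harmonic -/
theorem sub4_re {H : ℂ → ℂ} {z : ℂ} (hH : ∀ᶠ w in 𝓝 z, DifferentiableAt ℂ H w) :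
    Sub4 (fun w => (H w).re) z 0 := by
  obtain ⟨a, C, hC, h⟩ := taylor4 hH
  intro η hη
  have h0 : ∀ᶠ r : ℝ in 𝓝[>] (0:ℝ), 4 * C.re * r < η := by
    have hc : Continuous (fun r : ℝ => 4 * C.re * r) := by fun_prop
    have := (hc.tendsto 0).mono_left (nhdsWithin_le_nhds (s := Ioi (0:ℝ)))
    rw [mul_zero] at this
    exact this.eventually (gt_mem_nhds hη)
  filter_upwards [h, h0, self_mem_nhdsWithin] with r hr hr1 hr0
  have hr0' : (0:ℝ) < r := hr0
  set e : Fin 4 → ℂ := fun k =>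
    H (z + r * I ^ (k:ℕ)) - H z - r * I ^ (k:ℕ) * deriv H z - (r * I ^ (k:ℕ)) ^ 2 * a with he
  have h3 : (I : ℂ) ^ 3 = -I := by rw [pow_succ, I_sq]; ring
  have hsum : ∑ k : Fin 4, H (z + r * I ^ (k:ℕ)) = 4 * H z + ∑ k, e k := by
    simp only [he]
    rw [Fin.sum_univ_four, Fin.sum_univ_four]
    simp only [Fin.val_zero, Fin.val_one, Fin.val_two, pow_zero, pow_one, I_sq,
      show ((3 : Fin 4) : ℕ) = 3 from rfl, h3, mul_pow, neg_sq, I_sq]
    ring
  have h4 : ‖∑ k, e k‖ ≤ 4 * (C.re * r ^ 3) := by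
    refine (norm_sum_le _ _).trans ?_
    refine (Finset.sum_le_sum fun k _ => hr k).trans ?_
    simp
  have h5 : |(∑ k, e k).re| ≤ 4 * (C.re * r ^ 3) := (abs_re_le_norm _).trans h4
  have h6 : (∑ k : Fin 4, (H (z + r * I ^ (k:ℕ))).re) = 4 * (H z).re + (∑ k, e k).re := by
    rw [← sum_re_four, hsum]
    simp
  rw [h6]
  have h7 := (abs_le.1 h5).1
  have h8 : 4 * (C.re * r ^ 3) ≤ η * r ^ 2 := by
    have := mul_le_mul_of_nonneg_right hr1.le (sq_nonneg r)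
    nlinarith
  nlinarith

/-- the logarithm of the modulus of a holomorphic function is harmonic -/
theorem sub4_log {g : ℂ → ℂ} {z : ℂ} (hg : ∀ᶠ w in 𝓝 z, DifferentiableAt ℂ g w) (hz : g z ≠ 0)
    (s : ℝ) : Sub4 (fun w => s * Real.log ‖g w‖) z 0 := by
  have hc : ContinuousAt g z := (hg.self_of_nhds).continuousAt
  have hne : ∀ᶠ w in 𝓝 z, g w ≠ 0 := hc.eventually_ne hz
  have hq : Tendsto (fun w => g w / g z) (𝓝 z) (𝓝 1) := by
    have := hc.tendsto.div_const (g z)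
    rwa [div_self hz] at this
  have hslit : ∀ᶠ w in 𝓝 z, g w / g z ∈ slitPlane :=
    hq.eventually (isOpen_slitPlane.mem_nhds one_mem_slitPlane)
  have hd : ∀ᶠ w in 𝓝 z, DifferentiableAt ℂ (fun w => (s : ℂ) * Complex.log (g w / g z)) w := by
    filter_upwards [hg, hslit] with w h1 h2
    exact (DifferentiableAt.clog (h1.div_const _) h2).const_mul _
  have h1 := (sub4_re hd).add (sub4_const (s * Real.log ‖g z‖) z)
  rw [add_zero] at h1
  refine h1.congr ?_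
  filter_upwards [hne] with w hw
  rw [re_ofReal_mul, log_re, norm_div, Real.log_div (norm_ne_zero_iff.2 hw) (norm_ne_zero_iff.2 hz)]
  ring

/-- the square of the modulus of a holomorphic function -/
theorem sub4_neg_sq {g : ℂ → ℂ} {z : ℂ} (hg : ∀ᶠ w in 𝓝 z, DifferentiableAt ℂ g w) {s : ℝ}
    (hs : 0 ≤ s) : Sub4 (fun w => -(s * ‖g w‖ ^ 2)) z (-(4 * s * ‖deriv g z‖ ^ 2)) := by
  obtain ⟨a, C, hC, h⟩ := taylor4 hg
  intro η hη
  set B : ℝ := ‖a‖ + C.re with hB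
  have hB0 : 0 ≤ B := by positivity
  -- the error is `≤ D r ^ 3`
  set D : ℝ := s * (8 * ‖g z‖ * C.re + 8 * ‖deriv g z‖ * B + 4 * B ^ 2) with hD
  have h0 : ∀ᶠ r : ℝ in 𝓝[>] (0:ℝ), D * r < η := by
    have hc : Continuous (fun r : ℝ => D * r) := by fun_prop
    have := (hc.tendsto 0).mono_left (nhdsWithin_le_nhds (s := Ioi (0:ℝ)))
    rw [mul_zero] at this
    exact this.eventually (gt_mem_nhds hη)
  have h01 : ∀ᶠ r : ℝ in 𝓝[>] (0:ℝ), r < 1 :=
    (tendsto_id.mono_left nhdsWithin_le_nhds).eventually (gt_mem_nhds one_pos)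
  filter_upwards [h, h0, h01, self_mem_nhdsWithin] with r hr hr1 hr01 hr0
  have hr0' : (0:ℝ) < r := hr0
  have h3 : (I : ℂ) ^ 3 = -I := by rw [pow_succ, I_sq]; ring
  set t : Fin 4 → ℂ := fun k => g (z + r * I ^ (k:ℕ)) - g z with ht
  set e : Fin 4 → ℂ := fun k =>
    g (z + r * I ^ (k:ℕ)) - g z - r * I ^ (k:ℕ) * deriv g z - (r * I ^ (k:ℕ)) ^ 2 * a with he
  have hpow : ∀ k : Fin 4, ‖(r : ℂ) * I ^ (k:ℕ)‖ = r := fun k => by
    rw [norm_mul, norm_pow, norm_I, one_pow, mul_one, norm_real, Real.norm_of_nonneg hr0'.le]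
  have htk : ∀ k, ‖t k‖ ≤ r * ‖deriv g z‖ + B * r ^ 2 := by
    intro k
    have e1 : t k = r * I ^ (k:ℕ) * deriv g z + ((r * I ^ (k:ℕ)) ^ 2 * a + e k) := by
      simp only [ht, he]; ring
    rw [e1]
    refine (norm_add_le _ _).trans ?_
    refine add_le_add ?_ ((norm_add_le _ _).trans ?_)
    · rw [norm_mul, hpow]
    · rw [norm_mul, norm_pow, hpow]
      have h4 : C.re * r ^ 3 ≤ C.re * r ^ 2 := by
        apply mul_le_mul_of_nonneg_left _ hC
        nlinarith [sq_nonneg r]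
      have := hr k
      nlinarith
  have hsumt : ∑ k : Fin 4, t k = ∑ k : Fin 4, e k := by
    rw [Fin.sum_univ_four, Fin.sum_univ_four]
    simp only [ht, he, Fin.val_zero, Fin.val_one, Fin.val_two, pow_zero, pow_one,
      show ((3 : Fin 4) : ℕ) = 3 from rfl, h3, mul_pow, neg_sq, I_sq]
    ring
  have h4 : ‖∑ k, t k‖ ≤ 4 * (C.re * r ^ 3) := by
    rw [hsumt]
    refine (norm_sum_le _ _).trans ?_
    refine (Finset.sum_le_sum fun k _ => hr k).trans ?_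
    simp
  have hk : ∀ k : Fin 4,
      ‖g (z + r * I ^ (k:ℕ))‖ ^ 2 = ‖g z‖ ^ 2 + ‖t k‖ ^ 2 + 2 * (g z * conj (t k)).re := by
    intro k
    have e1 : g (z + r * I ^ (k:ℕ)) = g z + t k := by simp only [ht]; ring
    rw [e1, ← normSq_eq_norm_sq, ← normSq_eq_norm_sq, ← normSq_eq_norm_sq, normSq_add]
  have hcross : ∑ k : Fin 4, 2 * (g z * conj (t k)).re ≤ 8 * ‖g z‖ * C.re * r ^ 3 := by
    have e1 : ∑ k : Fin 4, 2 * (g z * conj (t k)).re = 2 * (g z * conj (∑ k, t k)).re := by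
      rw [map_sum, Finset.mul_sum, sum_re_four, Finset.mul_sum]
    rw [e1]
    have h5 : (g z * conj (∑ k, t k)).re ≤ ‖g z‖ * (4 * (C.re * r ^ 3)) := by
      refine (re_le_norm _).trans ?_
      rw [norm_mul, norm_conj]
      exact mul_le_mul_of_nonneg_left h4 (norm_nonneg _)
    linarith
  have hsq : ∀ k, ‖t k‖ ^ 2 ≤ r ^ 2 * ‖deriv g z‖ ^ 2 + (2 * ‖deriv g z‖ * B + B ^ 2) * r ^ 3 := by
    intro k
    have h5 := pow_le_pow_left₀ (norm_nonneg _) (htk k) 2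
    have h6 : B ^ 2 * r ^ 4 ≤ B ^ 2 * r ^ 3 := by
      apply mul_le_mul_of_nonneg_left _ (sq_nonneg B)
      have : 0 < r ^ 3 := by positivity
      nlinarith
    nlinarith
  have hall : ∑ k : Fin 4, ‖g (z + r * I ^ (k:ℕ))‖ ^ 2 ≤ 4 * ‖g z‖ ^ 2
      + 4 * (r ^ 2 * ‖deriv g z‖ ^ 2) + (8 * ‖g z‖ * C.re + 8 * ‖deriv g z‖ * B + 4 * B ^ 2) * r ^ 3 := by
    have h5 := Finset.sum_le_sum (s := Finset.univ) fun (k : Fin 4) _ => hsq k
    have h6 : ∑ k : Fin 4, ‖g (z + r * I ^ (k:ℕ))‖ ^ 2 = 4 * ‖g z‖ ^ 2 + ∑ k : Fin 4, ‖t k‖ ^ 2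
        + ∑ k : Fin 4, 2 * (g z * conj (t k)).re := by
      rw [Finset.sum_congr rfl fun k _ => hk k, Finset.sum_add_distrib, Finset.sum_add_distrib]
      simp
    simp only [Finset.sum_const, Finset.card_univ, Fintype.card_fin, nsmul_eq_mul] at h5
    push_cast at h5
    rw [h6]
    linarith
  rw [Finset.sum_neg_distrib, ← Finset.mul_sum]
  have h7 := mul_le_mul_of_nonneg_left hall hs
  have h8 : D * r ^ 3 ≤ η * r ^ 2 := by
    have := mul_le_mul_of_nonneg_right hr1.le (sq_nonneg r)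
    nlinarith
  have h9 : s * ((8 * ‖g z‖ * C.re + 8 * ‖deriv g z‖ * B + 4 * B ^ 2) * r ^ 3) = D * r ^ 3 := by
    rw [hD]; ring
  nlinarith

/-- **maximum principle**: on the compact set `K`, with `u` subharmonic off `B` -/
theorem max_principle {u : ℂ → ℝ} {K B : Set ℂ} (hK : IsCompact K) (hu : ContinuousOn u K)
    (hsub : ∀ z ∈ K \ B, K ∈ 𝓝 z ∧ Sub4 u z 0) {m : ℝ} (hB : ∀ z ∈ B, z ∈ K → u z ≤ m) {z : ℂ}
    (hz : z ∈ K) : u z ≤ m := by
  by_contra hcon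
  push Not at hcon
  obtain ⟨R, hR⟩ := hK.isBounded.exists_norm_le
  have hRb : ∀ w ∈ K, ‖w‖ ^ 2 ≤ R ^ 2 := fun w hw =>
    pow_le_pow_left₀ (norm_nonneg _) (hR w hw) 2
  set ε : ℝ := (u z - m) / (2 * (R ^ 2 + 1)) with hε
  have hR0 : 0 < R ^ 2 + 1 := by positivity
  have hε0 : 0 < ε := div_pos (by linarith) (by linarith)
  have hεR : ε * R ^ 2 < u z - m := by
    have h1 : ε * (2 * (R ^ 2 + 1)) = u z - m := by rw [hε]; field_simp
    nlinarith [sq_nonneg R]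
  obtain ⟨w, hwK, hw⟩ := hK.exists_isMaxOn ⟨z, hz⟩
    (hu.add ((continuous_norm.pow 2).const_mul ε |>.continuousOn) :
      ContinuousOn (fun y => u y + ε * ‖y‖ ^ 2) K)
  have hwm : ∀ y ∈ K, u y + ε * ‖y‖ ^ 2 ≤ u w + ε * ‖w‖ ^ 2 := fun y hy => hw hy
  have hwB : w ∉ B := by
    intro hwB
    have h1 := hB w hwB hwK
    have h2 := hwm z hz
    have h3 := mul_le_mul_of_nonneg_left (hRb w hwK) hε0.le
    have h4 : 0 ≤ ε * ‖z‖ ^ 2 := by positivity
    linarith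
  obtain ⟨hn, hs⟩ := hsub w ⟨hwK, hwB⟩
  have h1 := hs.add ((sub4_normSq w).const_mul hε0)
  have h2 := h1 ε hε0
  have h3 : ∀ᶠ r : ℝ in 𝓝[>] (0:ℝ), ∀ k : Fin 4, w + r * I ^ (k:ℕ) ∈ K := by
    apply eventually_all.2
    intro k
    have hc : Continuous (fun r : ℝ => w + r * I ^ (k:ℕ)) :=
      continuous_const.add (continuous_ofReal.mul continuous_const)
    have h0 : Tendsto (fun r : ℝ => w + r * I ^ (k:ℕ)) (𝓝[>] (0:ℝ)) (𝓝 w) := by
      have := (hc.tendsto 0).mono_left (nhdsWithin_le_nhds (s := Ioi (0:ℝ)))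
      simpa using this
    exact h0.eventually hn
  obtain ⟨r, ⟨hr1, hr2⟩, hr0⟩ := ((h2.and h3).and self_mem_nhdsWithin).exists
  have hr0' : (0:ℝ) < r := hr0
  have h4 : ∑ k : Fin 4, (u (w + r * I ^ (k:ℕ)) + ε * ‖w + r * I ^ (k:ℕ)‖ ^ 2)
      ≤ ∑ _k : Fin 4, (u w + ε * ‖w‖ ^ 2) :=
    Finset.sum_le_sum fun k _ => hwm _ (hr2 k)
  simp only [Finset.sum_const, Finset.card_univ, Fintype.card_fin, nsmul_eq_mul] at h4
  push_cast at h4
  have h5 : 0 < (0 + ε * 4 - ε) * r ^ 2 := by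
    have : 0 + ε * 4 - ε = 3 * ε := by ring
    rw [this]; positivity
  linarith

end Vale.Agent.P253.H89
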