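import Vale.Agent.P253.H89.Equi
import Vale.Agent.P253.H89.Four
import Vale.Agent.P253.R2.H618.Liou2

/-!
P253: self-maps which map larger and larger compact sets into one compact set: all limits are
constant (positive bisectional curvature).
-/

open scoped Manifold ContDiff Topology Bundle
open Set Metric Complex Filter Bundle IsManifold Manifold Module Vale.Agent.P253.Mfd
  Vale.Agent.P253.H805

set_option maxSynthPendingDepth 3
set_option linter.unusedSectionVars false

noncomputable section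

namespace Vale.Agent.P253.H89

open Vale.Agent.P253.R2

variable {E : Type*} [NormedAddCommGroup E] [NormedSpace ℂ E] [FiniteDimensional ℂ E]
  {M : Type*} [MetricSpace M] [ChartedSpace E M]
  [IsManifold 𝓘(ℂ, E) 1 M] [IsManifold 𝓘(ℝ, E) ∞ M]
  [RiemannianBundle (fun x : M => TangentSpace 𝓘(ℝ, E) x)]
  [IsContMDiffRiemannianBundle 𝓘(ℝ, E) ∞ E (fun x : M => TangentSpace 𝓘(ℝ, E) x)]
  [IsRiemannianManifold 𝓘(ℝ, E) M]

/-- the distance to `q` along a holomorphic disc is superharmonic -/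
theorem sub4_dist {f : ℂ → M} {U : Set ℂ} (hU : IsOpen U)
    (hf : MDifferentiableOn 𝓘(ℂ, ℂ) 𝓘(ℂ, E) f U) {z : ℂ} (hz : z ∈ U) {q : M} {c : ℝ} (hc : 0 < c)
    (hlev : LeviBound (E := E) q (f z) (-c)) : Sub4 (fun w => -dist (f w) q) z 0 := by
  intro η hη
  have h1 := H51.four_dist hU hf hz (chart_mem_maximalAtlas (f z)) (mem_chart_source E (f z))
    hlev hη
  filter_upwards [h1] with r hr
  have h2 : 0 ≤ c * chartG (chartAt E (f z)) (chartAt E (f z) (f z))
      (fderiv ℝ (fun w => chartAt E (f z) (f w)) z 1)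
      (fderiv ℝ (fun w => chartAt E (f z) (f w)) z 1) := by
    apply mul_nonneg hc.le
    by_cases h0 : fderiv ℝ (fun w => chartAt E (f z) (f w)) z 1 = 0
    · rw [h0]; simp
    · exact (chartG_pos (mem_maximalAtlas_real (chart_mem_maximalAtlas (f z)))
        (mem_chart_target E (f z)) _ h0).le
  have h3 : ∑ k : Fin 4, -dist (f (z + r • (I ^ (k:ℕ)))) q =
      ∑ k : Fin 4, -dist (f (z + r * I ^ (k:ℕ))) q := by
    simp only [real_smul]
  rw [h3] at hr
  refine le_trans ?_ hr
  have h4 := mul_nonneg h2 (sq_nonneg r)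
  rw [neg_neg]
  nlinarith

/-- **limits of self-maps which map every compact set into `K`** are constant -/
theorem exists_limit (hK : IsKahler E M) [CompleteSpace M] [NoncompactSpace M] [ConnectedSpace M]
    (hnn : ∀ x : M, NonnegBisectionalAt E x) (hpos : ∀ x : M, PosBisectionalAt E x)
    {K : Set M} (hKc : IsCompact K) {g : ℕ → M → M}
    (hg : ∀ j, MDifferentiable 𝓘(ℂ, E) 𝓘(ℂ, E) (g j))
    (hgK : ∀ C : Set M, IsCompact C → ∀ᶠ j in atTop, ∀ x ∈ C, g j x ∈ K) :
    ∃ p ∈ K, ∀ C : Set M, IsCompact C → ∀ W ∈ 𝓝 p,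
      ∀ᶠ j in (hyperfilter ℕ : Filter ℕ), ∀ x ∈ C, g j x ∈ W := by
  have hP : ProperSpace M := properSpace_riemannian E M
  have hPE : ProperSpace E := FiniteDimensional.proper ℂ E
  obtain ⟨x₀⟩ : Nonempty M := inferInstance
  obtain ⟨c, hc, L₀, hL₀, hlev⟩ := H348.levi_strict_compact hK hnn hKc fun x _ => hpos x
  obtain ⟨R, hR⟩ := hKc.isBounded.subset_closedBall x₀
  obtain ⟨q, hq⟩ := exists_far x₀ (R + L₀)
  have hlevK : ∀ x ∈ K, LeviBound (E := E) q x (-c) := by
    intro x hx
    refine hlev x hx q ?_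
    have h1 : dist x x₀ ≤ R := hR hx
    have h2 := dist_triangle x₀ x q
    rw [dist_comm x₀ x] at h2
    linarith
  have hle : (hyperfilter ℕ : Filter ℕ) ≤ atTop := Nat.hyperfilter_le_atTop
  have hlim : ∀ x, ∃ y ∈ K, Tendsto (fun j => g j x) (hyperfilter ℕ) (𝓝 y) := by
    intro x
    have h1 : ∀ᶠ j in atTop, g j x ∈ K := by
      filter_upwards [hgK {x} isCompact_singleton] with j hj
      exact hj x rfl
    obtain ⟨y, hy, h⟩ := hKc.ultrafilter_le_nhds ((hyperfilter ℕ).map (fun j => g j x))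
      (by rw [le_principal_iff]; exact mem_map.2 (hle h1))
    exact ⟨y, hy, h⟩
  choose F hFK hF using hlim
  -- equicontinuity
  have heq : ∀ x₁ : M, ∀ ε > 0, ∃ U ∈ 𝓝 x₁, ∀ᶠ j in atTop, ∀ x ∈ U, ∀ y ∈ U,
      dist (g j x) (g j y) < ε := by
    intro x₁ ε hε
    obtain ⟨B, hB, hd⟩ := exists_discs' (E := E) x₁
    obtain ⟨t, ht, h⟩ := equi hK hKc hc hlevK hε
    obtain ⟨U, hU, hd'⟩ := hd t ht
    refine ⟨U, hU, (hgK B hB).mono fun j hj x hx y hy => ?_⟩
    obtain ⟨γ, h1, h2, h3, z, hz, h4⟩ := hd' x hx y hy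
    have h5 := h (fun z => g j (γ z)) (fun z hz => (hg j _).comp z (h1 z hz))
      (fun z hz => hj _ (h2 z hz)) z hz
    simp only [h3, h4] at h5
    rwa [dist_comm]
  have hFeq : ∀ x₁ : M, ∀ ε > 0, ∃ U ∈ 𝓝 x₁, ∀ x ∈ U, ∀ y ∈ U, dist (F x) (F y) ≤ ε := by
    intro x₁ ε hε
    obtain ⟨U, hU, h⟩ := heq x₁ ε hε
    refine ⟨U, hU, fun x hx y hy => ?_⟩
    refine le_of_tendsto ((hF x).dist (hF y)) ?_
    filter_upwards [hle h] with j hj
    exact (hj x hx y hy).le
  have hFc : Continuous F := by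
    rw [continuous_iff_continuousAt]
    intro x
    refine Metric.tendsto_nhds.2 fun ε hε => ?_
    obtain ⟨U, hU, h⟩ := hFeq x (ε / 2) (half_pos hε)
    filter_upwards [hU] with y hy
    have := h y hy x (mem_of_mem_nhds hU)
    linarith
  have hloc : ∀ x₁ : M, ∀ ε > 0, ∃ U ∈ 𝓝 x₁, ∀ᶠ j in (hyperfilter ℕ : Filter ℕ), ∀ y ∈ U,
      dist (g j y) (F y) < ε := by
    intro x₁ ε hε
    obtain ⟨U, hU, h⟩ := heq x₁ (ε / 3) (by positivity)
    obtain ⟨U', hU', h'⟩ := hFeq x₁ (ε / 3) (by positivity)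
    refine ⟨U ∩ U', inter_mem hU hU', ?_⟩
    filter_upwards [hle h, Metric.tendsto_nhds.1 (hF x₁) (ε / 3) (by positivity)] with j hj hj' y hy
    have h1 := hj y hy.1 x₁ (mem_of_mem_nhds hU)
    have h2 := h' x₁ (mem_of_mem_nhds hU') y hy.2
    have h3 := dist_triangle4 (g j y) (g j x₁) (F x₁) (F y)
    linarith
  have hunif : ∀ C : Set M, IsCompact C → ∀ ε > 0, ∀ᶠ j in (hyperfilter ℕ : Filter ℕ), ∀ y ∈ C,
      dist (g j y) (F y) < ε := by
    intro C hC ε hε
    refine hC.induction_on (p := fun S => ∀ᶠ j in (hyperfilter ℕ : Filter ℕ), ∀ y ∈ S,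
      dist (g j y) (F y) < ε) ?_ ?_ ?_ ?_
    · exact Eventually.of_forall fun n x hx => absurd hx (notMem_empty x)
    · intro S T hST hT
      filter_upwards [hT] with n hn x hx
      exact hn x (hST hx)
    · intro S T hS hT
      filter_upwards [hS, hT] with n h1 h2 x hx
      exact hx.elim (h1 x) (h2 x)
    · intro x _
      obtain ⟨U, hU, hn⟩ := hloc x ε hε
      exact ⟨U, mem_nhdsWithin_of_mem_nhds hU, hn⟩
  -- the distance of `F` to `q` is constant
  set v : M → EReal := fun x => ((-dist (F x) q : ℝ) : EReal) with hv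
  have hvc : Continuous v :=
    continuous_coe_real_ereal.comp (hFc.dist continuous_const).neg
  have hnt : H156.NoTouch E v := by
    intro a h T c' r hc' hr ha hh h0 hh0 hle'
    set C : Set M := a '' closedBall (0:ℂ) r with hCd
    have hac : ContinuousOn a (closedBall (0:ℂ) r) := fun z hz =>
      (ha z hz).continuousAt.continuousWithinAt
    have hC : IsCompact C := (isCompact_closedBall _ _).image_of_continuousOn hac
    set ε : ℝ := c' * r ^ 2 / 4 with hε
    have hε0 : 0 < ε := by positivity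
    obtain ⟨j, hj1, hj2⟩ := ((hunif C hC ε hε0).and (hle (hgK C hC))).exists
    have hval : ∀ z ∈ closedBall (0:ℂ) r, |dist (g j (a z)) q - dist (F (a z)) q| < ε := by
      intro z hz
      refine (abs_dist_sub_le _ _ _).trans_lt (hj1 _ ⟨z, hz, rfl⟩)
    have hTz : -dist (F (a 0)) q = T := by
      have h2 : ((-dist (F (a 0)) q : ℝ) : EReal) = (T : EReal) := h0
      exact_mod_cast h2
    have hzle : ∀ z ∈ closedBall (0:ℂ) r, -dist (F (a z)) q ≤ T + (h z).re - c' * ‖z‖ ^ 2 := by
      intro z hz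
      have h2 : ((-dist (F (a z)) q : ℝ) : EReal) ≤
        ((T + (h z).re - c' * ‖z‖ ^ 2 : ℝ) : EReal) := hle' z hz
      exact_mod_cast h2
    have hmem0 : (0:ℂ) ∈ closedBall (0:ℂ) r := mem_closedBall_self hr.le
    have hgc : ContinuousOn (fun z => g j (a z)) (closedBall (0:ℂ) r) :=
      (hg j).continuous.comp_continuousOn hac
    have hu : ContinuousOn (fun z => -dist (g j (a z)) q + (-(h z)).re) (closedBall (0:ℂ) r) := by
      refine ContinuousOn.add (ContinuousOn.neg
        ((show Continuous fun x : M => dist x q by fun_prop).comp_continuousOn hgc)) ?_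
      have hhc : ContinuousOn h (closedBall (0:ℂ) r) := fun z hz =>
        (hh z hz).continuousAt.continuousWithinAt
      exact continuous_re.comp_continuousOn (ContinuousOn.neg hhc)
    have hmp := max_principle (K := closedBall (0:ℂ) r) (B := sphere (0:ℂ) r)
      (isCompact_closedBall _ _) hu (m := T - c' * r ^ 2 + ε) (z := 0) ?_ ?_ hmem0
    · have h3 := hval 0 hmem0
      rw [hh0] at hmp
      simp only [neg_zero, zero_re, add_zero] at hmp
      rw [abs_lt] at h3
      have h4 : 4 * ε = c' * r ^ 2 := by rw [hε]; ring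
      have h5 : 0 < c' * r ^ 2 := by positivity
      linarith [h3.1, h3.2]
    · rintro z ⟨hz1, hz2⟩
      have hzb : z ∈ ball (0:ℂ) r := by
        rw [mem_ball]
        exact lt_of_le_of_ne (mem_closedBall.1 hz1) fun h => hz2 (mem_sphere.2 h)
      refine ⟨mem_of_superset (isOpen_ball.mem_nhds hzb) ball_subset_closedBall, ?_⟩
      have h2 : Sub4 (fun w => -dist (g j (a w)) q) z 0 := by
        refine sub4_dist (E := E) isOpen_ball (fun w hw => ?_) hzb hc
          (hlevK _ (hj2 _ ⟨z, hz1, rfl⟩))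
        exact ((hg j _).comp w (ha w (ball_subset_closedBall hw))).mdifferentiableWithinAt
      have h3 : Sub4 (fun w => (-(h w)).re) z 0 := by
        refine sub4_re (H := fun w => -(h w)) ?_
        filter_upwards [isOpen_ball.mem_nhds hzb] with w hw
        exact (hh w (ball_subset_closedBall hw)).neg
      have h4 := h2.add h3
      rwa [add_zero] at h4
    · intro z hz _
      have hzc : z ∈ closedBall (0:ℂ) r := sphere_subset_closedBall hz
      have h2 := hzle z hzc
      have h3 := hval z hzc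
      have h4 : ‖z‖ = r := mem_sphere_zero_iff_norm.1 hz
      rw [h4] at h2
      rw [abs_lt] at h3
      rw [neg_re]
      linarith [h3.1, h3.2]
  obtain ⟨C₀, hC₀⟩ := H618.liouville_noTouch hK hnn v hvc.upperSemicontinuous (fun x => by
    have h1 : (-dist (F x) q : ℝ) ≤ 0 := neg_nonpos.2 dist_nonneg
    change ((-dist (F x) q : ℝ) : EReal) ≤ ((0 : ℝ) : EReal)
    exact EReal.coe_le_coe_iff.2 h1) hnt
  have hd : ∀ x, dist (F x) q = dist (F x₀) q := by
    intro x
    have h1 : v x = v x₀ := (hC₀ x).trans (hC₀ x₀).symm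
    have h2 : ((-dist (F x) q : ℝ) : EReal) = ((-dist (F x₀) q : ℝ) : EReal) := h1
    have h3 : -dist (F x) q = -dist (F x₀) q := by exact_mod_cast h2
    linarith
  -- `F` is constant
  have hconst : IsLocallyConstant F := by
    rw [IsLocallyConstant.iff_eventually_eq]
    intro x₁
    obtain ⟨U, hU, B, hB, hdisc⟩ := exists_discs (E := E) x₁
    filter_upwards [hU] with y hy
    refine dist_le_zero.1 (le_of_forall_pos_le_add fun ε hε => ?_)
    rw [zero_add]
    obtain ⟨t, ht, hnm⟩ := near_max hK hKc hc hlevK hε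
    obtain ⟨γ, h1, h2, h3, h4⟩ := hdisc x₁ (mem_of_mem_nhds hU) y hy
    refine le_of_tendsto ((hF y).dist (hF x₁)) ?_
    filter_upwards [hunif B hB (t / 2) (half_pos ht), hle (hgK B hB)] with j hj1 hj2
    have h5 := hnm (fun z => g j (γ z)) (fun z hz => (hg j _).comp z (h1 z hz))
      (fun z hz => hj2 _ (h2 z hz)) (1 / 2 : ℂ)
      (by rw [mem_closedBall, dist_zero_right]; norm_num) ?_
    · simp only [h3, h4] at h5
      exact h5.le
    · intro w hw
      have hhalf : (1 / 2 : ℂ) ∈ closedBall (0:ℂ) 1 := by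
        rw [mem_closedBall, dist_zero_right]; norm_num
      have h6 := hj1 _ (h2 _ hhalf)
      have h7 := hj1 _ (h2 w hw)
      have h8 := abs_dist_sub_le (g j (γ (1 / 2))) (F (γ (1 / 2))) q
      have h9 := abs_dist_sub_le (g j (γ w)) (F (γ w)) q
      have e1 := hd (γ (1 / 2))
      have e2 := hd (γ w)
      rw [abs_le] at h8 h9
      linarith [h8.1, h8.2, h9.1, h9.2]
  have hFx : ∀ x, F x = F x₀ := fun x => hconst.apply_eq_of_preconnectedSpace x x₀
  refine ⟨F x₀, hFK x₀, fun C hC W hW => ?_⟩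
  obtain ⟨ε, hε, hεW⟩ := Metric.mem_nhds_iff.1 hW
  filter_upwards [hunif C hC ε hε] with j hj x hx
  exact hεW (by rw [mem_ball, ← hFx x]; exact hj x hx)

end Vale.Agent.P253.H89
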