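import Vale.Agent.P253.H348.Sol
import Vale.Agent.P253.H595.Vf

/-!
P253: Kaehler-Ricci solitons with an arbitrary soliton field: the Lie derivative of the metric is
positive.
-/

open scoped Manifold ContDiff Topology Bundle
open Set Metric Complex Filter Bundle IsManifold Module Vale.Agent.P253.Mfd Vale.Agent.P253.H348
  Vale.Agent.P253.H595

set_option maxSynthPendingDepth 3
set_option linter.unusedSectionVars false

noncomputable section

namespace Vale.Agent.P253.H89

variable {E : Type*} [NormedAddCommGroup E] [NormedSpace ℂ E]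
  {M : Type*} [MetricSpace M] [ChartedSpace E M]

section metric

variable [RiemannianBundle (fun x : M => TangentSpace 𝓘(ℝ, E) x)]

/-- `g(∇_a Z, a)`: half the Lie derivative of the metric along the vector field `Z`, in the chart `e`
at the point `z` of the chart -/
def HalfLie (e : OpenPartialHomeomorph M E) (z : E) (Γ : E → E → E)
    (Z : (x : M) → TangentSpace 𝓘(ℂ, E) x) (a : E) : ℝ :=
  chartMetric e z
    (fderiv ℝ (fun y => comps Z e (e.symm y)) z a + Γ a (comps Z e (e.symm z))) a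

variable (E) in
/-- `Rc = lam g + (1/2) L_Z g`: the metric is a Ricci soliton with soliton field `Z` -/
def IsRicciSoliton (Z : (x : M) → TangentSpace 𝓘(ℂ, E) x) (lam : ℝ) : Prop :=
  ∀ e ∈ maximalAtlas 𝓘(ℂ, E) 1 M, ∀ z ∈ e.target, ∀ Γ, IsChristoffel e z Γ →
    ∀ b, IsOrthonormalAt e z b → ∀ a,
      ricNum e z Γ b a = lam * chartMetric e z a a + HalfLie e z Γ Z a

end metric

variable [FiniteDimensional ℂ E] [IsManifold 𝓘(ℂ, E) 1 M] [IsManifold 𝓘(ℝ, E) ∞ M]
  {e : OpenPartialHomeomorph M E} {z : E} {Γ : E → E → E} {lam : ℝ}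
  {Z : (x : M) → TangentSpace 𝓘(ℂ, E) x}
  [RiemannianBundle (fun x : M => TangentSpace 𝓘(ℝ, E) x)]
  [IsContMDiffRiemannianBundle 𝓘(ℝ, E) ∞ E (fun x : M => TangentSpace 𝓘(ℝ, E) x)]

/-- the two forms of half the Lie derivative agree -/
theorem Sfun_comps (hK : IsKahler E M) (he : e ∈ maximalAtlas 𝓘(ℂ, E) 1 M) (hz : z ∈ e.target)
    (hΓ : IsChristoffel e z Γ) (a : E) :
    Sfun (chartG e) (fun y => comps Z e (e.symm y)) z a = HalfLie e z Γ Z a := by
  have hL := localKahler_chartG hK he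
  have h1 := hL.fderiv_eq hz (comps Z e (e.symm z)) a a
  have h2 := hL.symm z hz a (chris (chartG e) z (comps Z e (e.symm z)) a)
  rw [HalfLie, isChristoffel_eq (mem_maximalAtlas_real he) hz hΓ, ← chartG_apply, Sfun,
    hL.chris_symm hz a, map_add, add_apply]
  linarith only [h1, h2]

/-- for a soliton the sum of the sectional curvatures is the sum of bisectional curvatures -/
theorem IsRicciSoliton.ricNum_eq (hK : IsKahler E M) (hs : IsRicciSoliton E Z lam)
    (he : e ∈ maximalAtlas 𝓘(ℂ, E) 1 M) (hz : z ∈ e.target) (hΓ : IsChristoffel e z Γ)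
    {b : Fin (finrank ℝ E) → E} (hb : IsOrthonormalAt e z b) (a : E) :
    ricNum e z Γ b a = ∑ i, Rc (chartG e) z (b i) a := by
  have her := mem_maximalAtlas_real he
  have hL := localKahler_chartG hK he
  have h1 := hs e he z hz Γ hΓ b hb a
  have h2 := hs e he z hz Γ hΓ _ (hb.smul_I hK he hz) a
  have h3 : ricNum e z Γ b a + ricNum e z Γ (fun i => I • b i) a
      = 2 * ∑ i, Rc (chartG e) z (b i) a := by
    rw [ricNum, ricNum, ← Finset.sum_add_distrib, Finset.mul_sum]
    refine Finset.sum_congr rfl fun i _ => ?_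
    rw [sectNum_eq her hz hΓ, sectNum_eq her hz hΓ, hL.secG_add hz]
  linarith only [h1, h2, h3]

/-- half the Lie derivative of the metric along the soliton field -/
theorem IsRicciSoliton.Sfun_eq (hK : IsKahler E M) (hs : IsRicciSoliton E Z lam)
    (he : e ∈ maximalAtlas 𝓘(ℂ, E) 1 M) (hz : z ∈ e.target)
    {b : Fin (finrank ℝ E) → E} (hb : IsOrthonormalAt e z b) (a : E) :
    Sfun (chartG e) (fun y => comps Z e (e.symm y)) z a
      = (∑ i, Rc (chartG e) z (b i) a) - lam * chartG e z a a := by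
  obtain ⟨Γ, hΓ⟩ := exists_christoffel hK he hz
  rw [Sfun_comps hK he hz hΓ, ← hs.ricNum_eq hK he hz hΓ hb, hs e he z hz Γ hΓ b hb a, chartG_apply]
  ring

/-- the Lie derivative of the metric is nonnegative -/
theorem IsRicciSoliton.Sfun_nonneg (hK : IsKahler E M) (hs : IsRicciSoliton E Z lam)
    (hlam : lam ≤ 0) (he : e ∈ maximalAtlas 𝓘(ℂ, E) 1 M) (hz : z ∈ e.target)
    (hnn : NonnegBisectionalAt E (e.symm z)) (a : E) :
    0 ≤ Sfun (chartG e) (fun y => comps Z e (e.symm y)) z a := by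
  obtain ⟨b, hb⟩ := exists_orthonormalAt (e := e) he hz
  rw [hs.Sfun_eq hK he hz hb]
  have h1 : 0 ≤ ∑ i, Rc (chartG e) z (b i) a :=
    Finset.sum_nonneg fun i _ => Rc_nonneg_chartG hK he hz hnn _ _
  have h2 : 0 ≤ chartG e z a a := by
    rcases eq_or_ne a 0 with rfl | ha
    · simp
    · exact (chartG_pos (mem_maximalAtlas_real he) hz a ha).le
  nlinarith only [h1, h2, hlam]

/-- the Lie derivative of the metric is positive definite where the curvature is positive -/
theorem IsRicciSoliton.Sfun_pos (hK : IsKahler E M) (hs : IsRicciSoliton E Z lam)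
    (hlam : lam ≤ 0) (he : e ∈ maximalAtlas 𝓘(ℂ, E) 1 M) (hz : z ∈ e.target)
    (hpos : PosBisectionalAt E (e.symm z)) {a : E} (ha : a ≠ 0) :
    0 < Sfun (chartG e) (fun y => comps Z e (e.symm y)) z a := by
  have : FiniteDimensional ℝ E := FiniteDimensional.complexToReal E
  have : Nontrivial E := ⟨a, 0, ha⟩
  have hne : Nonempty (Fin (finrank ℝ E)) := ⟨⟨0, finrank_pos⟩⟩
  obtain ⟨b, hb⟩ := exists_orthonormalAt (e := e) he hz
  rw [hs.Sfun_eq hK he hz hb]
  have h1 : 0 < ∑ i, Rc (chartG e) z (b i) a := by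
    refine Finset.sum_pos (fun i _ => ?_) Finset.univ_nonempty
    refine Rc_pos_chartG hK he hz hpos (b i) a (fun h0 => ?_) ha
    have h2 := hb i i
    rw [if_pos rfl, h0, ← chartG_apply, map_zero] at h2
    exact zero_ne_one h2
  have h2 := chartG_pos (mem_maximalAtlas_real he) hz a ha
  nlinarith only [h1, h2, hlam]

/-- `Ric >= 0`, i.e. the hypothesis of the nonexpanding theorem, in all charts of the atlas -/
theorem IsRicciSoliton.hS (hK : IsKahler E M) (hs : IsRicciSoliton E Z lam) (hlam : lam ≤ 0)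
    (hnn : ∀ x : M, NonnegBisectionalAt E x) :
    ∀ e ∈ maximalAtlas 𝓘(ℂ, E) 1 M, ∀ z ∈ e.target, ∀ a,
      0 ≤ Sfun (chartG e) (fun y => comps Z e (e.symm y)) z a :=
  fun _ he _ hz a => hs.Sfun_nonneg hK hlam he hz (hnn _) a

end Vale.Agent.P253.H89
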